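import Crest.Agent.R216.TBal
import Crest.Agent.R216.TNorm
import Crest.Agent.R216.TAsm
/-! # R216: the topological input (Morse function + formal immersion), see `TDefs.lean` for the route -/

set_option autoImplicit false
open scoped Manifold ContDiff Topology Matrix
open Set Filter

namespace Crest.Agent.R216
universe u
variable {M : Type u} [TopologicalSpace M] [ChartedSpace E2 M] [IsManifold (𝓡 2) ∞ M]
  [T2Space M] [CompactSpace M]

/-- the linear model of `du ∧ (dx + i dy)` -/
noncomputable def topB (a b : ℝ) : E2 →L[ℝ] ℂ :=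
  (EuclideanSpace.proj (1 : Fin 2) : E2 →L[ℝ] ℝ).smulRight ((-a : ℝ) : ℂ) +
    (EuclideanSpace.proj (0 : Fin 2) : E2 →L[ℝ] ℝ).smulRight ((b : ℂ) * Complex.I)

theorem topB_apply (a b : ℝ) (z : E2) : topB a b z = (⟨-(a * z 1), b * z 0⟩ : ℂ) := by
  apply Complex.ext <;> simp [topB] <;> ring

theorem topB_inj {a b : ℝ} (ha : a ≠ 0) (hb : b ≠ 0) : Function.Injective (topB a b) := by
  intro z w h
  rw [topB_apply, topB_apply, Complex.mk.injEq] at h
  ext i
  fin_cases i
  · exact mul_left_cancel₀ hb h.2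
  · exact mul_left_cancel₀ ha (neg_injective h.1)

theorem exists_crit (g : Met M) : Nonempty (Crit g) := by
  classical
  obtain ⟨f, Ω, hf, hΩ, hz⟩ := balance (M := M)
  have hfin : {p | dd f p = 0}.Finite := by
    refine hΩ.finite.subset fun p hp => (hz p).2 hp
  obtain ⟨f', hf', hc, hnf⟩ := hf.normal_all g hfin
  have hnf' : ∀ p, ∃ (e : OpenPartialHomeomorph M E2) (η κ l1 l2 : ℝ),
      dd f p = 0 → NF g f' e p η κ l1 l2 := by
    intro p
    by_cases hp : dd f p = 0
    · obtain ⟨e, η, κ, l1, l2, h⟩ := hnf p hp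
      exact ⟨e, η, κ, l1, l2, fun _ => h⟩
    · exact ⟨chartAt E2 p, 0, 0, 0, 0, fun h => absurd h hp⟩
  choose e η κ l1 l2 hN using hnf'
  obtain ⟨Ω', hΩ', hz', hn⟩ := hΩ.normal_all hΩ.finite e
    (fun p => topB (2 * η p * κ p * l2 p) (2 * η p * l1 p)) (fun p hp => by
      have h := hN p ((hz p).1 hp)
      have h1 : η p ≠ 0 := by rcases h.η_sq with h | h <;> rw [h] <;> norm_num
      have h2 : κ p ≠ 0 := by rcases h.κ_sq with h | h <;> rw [h] <;> norm_num
      have h3 := h.l1_pos.ne'
      have h4 := h.l2_pos.ne'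
      exact ⟨h.ch, h.mem, h.zero, topB_inj (by positivity) (by positivity)⟩)
  refine assemble g hf' hΩ' (hfin.subset fun p hp => (hc p).1 hp)
    (fun p hp => (hc p).2 ((hz p).1 ((hz' p).1 hp))) fun p hp => ?_
  have hp' := (hc p).1 hp
  rcases hn p ((hz p).2 hp') with h | h
  · refine ⟨e p, η p, κ p, l1 p, l2 p, 1, hN p hp', Or.inl rfl, h.trans ?_⟩
    refine Eventually.of_forall fun z => ?_
    simp only [topB_apply, one_mul]
  · refine ⟨e p, η p, κ p, l1 p, l2 p, -1, hN p hp', Or.inr rfl, h.trans ?_⟩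
    refine Eventually.of_forall fun z => ?_
    simp only [topB_apply]
    apply Complex.ext <;> simp

end Crest.Agent.R216
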