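import Crest.Agent.R216.Twist
import Crest.Agent.R216.Pert
import Crest.Agent.R216.Top
import Crest.Agent.R216.CalcEx
/-! # R216: assembly -/

set_option autoImplicit false
open scoped Manifold ContDiff Topology Matrix
open Set Filter

namespace Crest.Agent.R216
universe u
variable {M : Type u} [TopologicalSpace M] [ChartedSpace E2 M] [IsManifold (𝓡 2) ∞ M]
  [T2Space M] [CompactSpace M]

theorem main_lb {m : ℕ} (f : Fin m → ℝ) (hf : ∀ j, 0 < f j) : ∃ k > 0, ∀ j, k ≤ f j := by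
  have h : ∀ j, ∀ᶠ k in 𝓝[>] (0 : ℝ), k ≤ f j := fun j => nhdsWithin_le_nhds (Iic_mem_nhds (hf j))
  obtain ⟨k, h1, h2⟩ := ((Filter.eventually_all.2 h).and self_mem_nhdsWithin).exists
  exact ⟨k, h2, h1⟩

omit [T2Space M] [CompactSpace M] in
/-- Choice of the glued data: `R0` from `T.flat (1/100)`, `k` below the finitely many `k0`, `B, CK` above
the finitely many `B0, CK0` (`exists_pmod`), `r` from `T.flat t`. -/
theorem exists_tdata {g : Met M} (T : Crit g) (K : ℕ) : ∃ R0 k B CK η0 : ℝ, 0 < R0 ∧ 0 < k ∧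
    1 ≤ B ∧ 0 < η0 ∧ ∀ t > 0, t ≤ 1 / 100 → ∀ η' > 0, η' ≤ η0 →
      ∃ (D : TData T) (r : ℝ), D.R0 = R0 ∧ D.k = k ∧ D.η' = η' ∧ D.Good B CK K t r := by
  obtain ⟨r0, hr0, hf0⟩ := T.flat (1 / 100) (by norm_num)
  have hR := T.R_pos
  have hR0 : 0 < min r0 T.R / 4 := by positivity
  have h1 := min_le_left r0 T.R
  have h2 := min_le_right r0 T.R
  choose k0 hk0 hk using fun j => exists_pmod K (T.η_sq j) (T.κ_sq j) (T.ε_sq j) (T.l1_pos j)
    (T.l2_pos j) (T.y1_pos j) (T.y2_pos j) hR0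
  obtain ⟨k, hkp, hkle⟩ := main_lb k0 hk0
  choose B0 CK0 η0 hη0 hP using fun j => hk j k hkp (hkle j)
  obtain ⟨η1, hη1, hη1le⟩ := main_lb η0 hη0
  obtain ⟨B, hB⟩ := (finite_range B0).bddAbove
  obtain ⟨CK, hCK⟩ := (finite_range CK0).bddAbove
  refine ⟨min r0 T.R / 4, k, max 1 B, CK, η1, hR0, hkp, le_max_left _ _, hη1,
    fun t ht ht1 η' hη' hη'le => ?_⟩
  obtain ⟨r1, hr1, hf1⟩ := T.flat t ht
  choose a b Θ Δ hM using fun j => hP j (max 1 B)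
    ((hB (mem_range_self j)).trans (le_max_right _ _)) CK (hCK (mem_range_self j)) t ht
    (min r1 (min r0 T.R / 4)) (lt_min hr1 hR0) (min_le_right _ _) η' hη' (hη'le.trans (hη1le j))
  refine ⟨⟨min r0 T.R / 4, k, η', a, b, Θ, Δ⟩, min r1 (min r0 T.R / 4), rfl, rfl, rfl,
    ⟨hR0, by dsimp only; linarith, hkp, hη', min_le_right _ _, ht, ht1, le_max_left _ _,
      fun j q hq hx hy => hf0 j q hq ?_ ?_,
      fun j q hq hx hy => hf1 j q hq (hx.trans (min_le_left _ _)) (hy.trans (min_le_left _ _)),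
      hM⟩⟩
  · dsimp only at hx
    linarith
  · dsimp only at hy
    linarith

theorem main_kpt {g : E2 →L[ℝ] E2 →L[ℝ] ℝ} (hg : ∀ v, 0 ≤ g v v) {w0 w1 l : E2 → ℝ}
    {B B' t t' : ℝ} (hB : 0 < B) (hB' : B ≤ B') (ht : t ≤ t') (h : KPt g w0 w1 l B t) :
    KPt g w0 w1 l B' t' := by
  obtain ⟨h1, ⟨v, h2, h3⟩, γ, τ, h4, h5, h6, h7, h8⟩ := h
  have hsq : B ^ 2 ≤ B' ^ 2 := by gcongr
  exact ⟨fun v => (h1 v).trans (mul_le_mul_of_nonneg_right hsq (hg v)),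
    ⟨v, h2, (inv_anti₀ hB hB').trans h3⟩, γ, τ, h4, h5, h6.trans hsq,
    fun v => (h7 v).trans (mul_le_mul_of_nonneg_right ht (hg v)),
    fun v => (h8 v).trans (mul_le_mul_of_nonneg_right ht (hg v))⟩

omit [IsManifold (𝓡 2) ∞ M] [T2Space M] [CompactSpace M] in
theorem main_jf {Φ Φ' : M → Fin 3 → ℝ} {a a' : M → ℝ} {q : M} (h : Φ =ᶠ[𝓝 q] Φ')
    (ha : a q = a' q) (v : E2) : Jf Φ a 0 q v = Jf Φ' a' 0 q v := by
  simp only [Jf, dd_congr h, ha]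

omit [T2Space M] [CompactSpace M] in
theorem main_iim {g : Met M} (C : Calc g) {Φ Φ' : M → Fin 3 → ℝ} {a a' : M → ℝ} {q : M}
    (h : Φ =ᶠ[𝓝 q] Φ') (ha : a =ᶠ[𝓝 q] a') {B B' t t' ε : ℝ} (hB : 0 < B) (hB' : B ≤ B')
    (ht : t ≤ t') (hε : 0 < ε) {i : Fin C.n} (H : C.IIM Φ a B t ε i q) :
    C.IIM Φ' a' B' t' ε i q := by
  rcases H with ⟨v, h1, h2⟩ | ⟨m, u, h1, h2, h3⟩
  · exact Or.inl ⟨v, h1, by rw [← dd_congr h]; exact (inv_anti₀ hB hB').trans h2⟩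
  · refine Or.inr ⟨m, u, h1, fun v => ?_, ?_⟩
    · rw [← main_jf h ha.self_of_nhds]
      exact (h2 v).trans ht
    · have h4 : (fun q => Jf Φ a 0 q (C.V (i, u) q)) =ᶠ[𝓝 q]
          fun q => Jf Φ' a' 0 q (C.V (i, u) q) := by
        filter_upwards [h.eventually_nhds, ha] with x hx hax using main_jf hx hax _
      have h5 : C.Z (i, u) (fun q => Jf Φ a 0 q (C.V (i, u) q)) q =
          C.Z (i, u) (fun q => Jf Φ' a' 0 q (C.V (i, u) q)) q :=
        congrArg (fun L : E2 →L[ℝ] (Fin 3 → ℝ) => L (C.V (i, u) q)) (dd_congr h4)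
      rw [← h5]
      exact (div_le_div_of_nonneg_right (inv_anti₀ hB hB') hε.le).trans h3

/-- `exists_tdata` (with `K+1`), `Crit.exists_bounds` (radius `3 R0`), `kuiper` with
`B₁ = max (2(B+Bu)) (max k k⁻¹)`, `Y = η' T.Y` with `η'² Bu² ≤ t`; glue: near `Q0` the output of `kuiper` is
`D.Φ`, `k⁻¹` (use `del1, del2`, germs), off `Q0` the sharpening vanishes near the point. -/
theorem exists_twp {g : Met M} (C : Calc g) (T : Crit g) (K : ℕ) : ∃ B CK : ℝ, 1 ≤ B ∧ ∀ t > 0,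
    ∃ (Φ : M → Fin 3 → ℝ) (a : M → ℝ) (Δ : ℝ → M → Fin 3 → ℝ), TwP C B CK K t Φ a Δ := by
  have hg : ∀ q v, 0 ≤ g.g q v v := fun q v => by
    by_cases hv : v = 0
    · simp [hv]
    · exact (g.pos q v hv).le
  obtain ⟨R0, k, B, CK, η0, hR0, hk, hB, hη0, hD⟩ := exists_tdata T (K + 1)
  obtain ⟨Bu, hBu, hY, hu⟩ := T.exists_bounds C (r := 3 * R0) (by positivity)
  have hB0 : 0 < 2 * (B + Bu) := by positivity
  obtain ⟨B', hB', hku⟩ := kuiper C (max (2 * (B + Bu)) (max k k⁻¹)) (lt_max_of_lt_left hB0)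
  obtain ⟨c, hc⟩ := TData.del3 T C (K + 1)
  have hf1 : B' ≤ max (max B' 2) (100 * B) := (le_max_left _ _).trans (le_max_left _ _)
  have hf2 : 2 ≤ max (max B' 2) (100 * B) := (le_max_right _ _).trans (le_max_left _ _)
  have hf3 : 100 * B ≤ max (max B' 2) (100 * B) := le_max_right _ _
  refine ⟨max (max B' 2) (100 * B), c * |CK|, by linarith, fun t ht => ?_⟩
  obtain ⟨tk, htk, hku⟩ := hku t ht
  obtain ⟨t', ht', h1, h2, h3, h4⟩ : ∃ t' > 0, t' ≤ tk / 3 ∧ t' ≤ t / 4 ∧ t' ≤ 1 / 100 ∧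
      t' ≤ 1 / (1000 * B) :=
    ⟨min (tk / 3) (min (t / 4) (min (1 / 100) (1 / (1000 * B)))), by positivity, min_le_left _ _,
      (min_le_right _ _).trans (min_le_left _ _),
      (min_le_right _ _).trans ((min_le_right _ _).trans (min_le_left _ _)),
      (min_le_right _ _).trans ((min_le_right _ _).trans (min_le_right _ _))⟩
  have h5 : 1000 * B * t' ≤ 1 := by
    rw [le_div_iff₀ (by positivity)] at h4
    linarith
  have hη' : 0 < min η0 (min 1 tk / Bu) := by positivity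
  obtain ⟨D, r, e1, e2, e3, H⟩ := hD t' ht' h3 _ hη' (min_le_left _ _)
  have hηB : (D.η' * Bu) ^ 2 ≤ tk := by
    have h6 : D.η' * Bu ≤ min 1 tk := by
      rw [e3, ← le_div_iff₀ (by positivity)]
      exact min_le_right _ _
    have h7 : 0 ≤ D.η' * Bu := by rw [e3]; positivity
    nlinarith [min_le_left 1 tk, min_le_right 1 tk]
  obtain ⟨Φ, a, hΦ, ha, hQ, hΦ1, hab, hiso, hlow⟩ := hku D.Φ (fun _ => D.k⁻¹) D.Y D.Q0 D.Q1
    (TData.Φ_sm H) (sm_const _) (fun V hV => (sm_const D.η').smul' (T.Y_sm V hV))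
    (TData.Q0_closed H) (TData.Q1_open H) (TData.Q0_sub H)
    (fun q v => by
      have h6 : ‖D.Y q v‖ ^ 2 = D.η' ^ 2 * ‖T.Y q v‖ ^ 2 := by
        simp [TData.Y, norm_smul, mul_pow]
      rw [h6]
      calc D.η' ^ 2 * ‖T.Y q v‖ ^ 2 ≤ D.η' ^ 2 * (Bu ^ 2 * g.g q v v) := by
            gcongr
            exact hY q v
        _ = (D.η' * Bu) ^ 2 * g.g q v v := by ring
        _ ≤ tk * g.g q v v := mul_le_mul_of_nonneg_right hηB (hg q v))
    (fun q hq => ⟨by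
        rw [e2]
        exact inv_anti₀ hk ((le_max_left _ _).trans (le_max_right _ _)),
      by rw [e2]; exact (le_max_right _ _).trans (le_max_right _ _),
      fun v => (TData.iso1 H q hq v).trans (mul_le_mul_of_nonneg_right (by linarith) (hg q v))⟩)
    (fun q hq => main_kpt (hg q) hB0 (le_max_left _ _) (by linarith)
      (TData.kpt H hBu (by rw [e1]; exact hu) q hq))
    (fun q _ v => TData.inj H q v)
  have hgerm : ∀ q ∈ D.Q0, D.Φ =ᶠ[𝓝 q] Φ ∧ (fun _ => D.k⁻¹) =ᶠ[𝓝 q] a := fun q hq =>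
    ⟨(hQ.filter_mono (nhds_le_nhdsSet hq)).mono fun x hx => hx.1.symm,
      (hQ.filter_mono (nhds_le_nhdsSet hq)).mono fun x hx => hx.2.symm⟩
  refine ⟨Φ, a, D.Del, hΦ, ha, fun q => ⟨(inv_anti₀ hB' hf1).trans (hab q).1, (hab q).2.trans hf1⟩,
    fun q => ?_, hiso, ?_⟩
  · have h6 := TData.W_bd H q
    have h7 : ∀ i, |Φ q i - D.Φ q i| ≤ 1 := fun i => (norm_le_pi_norm (Φ q - D.Φ q) i).trans (hΦ1 q)
    have h8 := h7 0
    have h9 := h7 1
    rw [abs_le] at h8 h9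
    rw [abs_le, abs_le] at h6 ⊢
    exact ⟨⟨by linarith, by linarith⟩, by linarith, by linarith⟩
  filter_upwards [TData.del1 H, TData.del2 H C h5, hc D B CK t' r H, self_mem_nhdsWithin]
    with ε d1 d2 d3 hε
  have hin : ∀ q ∈ D.Q0, (fun q => D.Φ q + D.Del ε q) =ᶠ[𝓝 q] fun q => Φ q + D.Del ε q :=
    fun q hq => (hgerm q hq).1.mono fun x hx => by simp only [hx]
  have hout : ∀ q ∉ D.Q0, Φ =ᶠ[𝓝 q] fun q => Φ q + D.Del ε q :=
    fun q hq => (d1.2.1 q hq).mono fun x hx => by simp only [hx, add_zero]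
  refine ⟨d1.1, d1.2.2.1, d3, fun q v => ?_, fun i q hqi => ?_⟩
  · by_cases hq : q ∈ D.Q0
    · rw [← main_jf (a := fun _ => D.k⁻¹) (hin q hq) (hgerm q hq).2.self_of_nhds]
      exact (d1.2.2.2 q hq v).trans (mul_le_mul_of_nonneg_right (by linarith) (hg q v))
    · rw [← main_jf (a := a) (hout q hq) rfl]
      exact hiso q v
  · by_cases hq : q ∈ D.Q0
    · exact main_iim C (hin q hq) (hgerm q hq).2 (by positivity) hf3 (by linarith) hε
        (d2 i q ⟨hq, hqi⟩)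
    · obtain ⟨v, h6, h7⟩ := hlow q hq
      refine Or.inl ⟨v, h6, ?_⟩
      rw [← dd_congr (hout q hq)]
      exact (inv_anti₀ hB' hf1).trans (h7.trans (le_abs_self _))

theorem exists_isometric (g : Met M) :
    ∃ G : M → Fin 4 → ℝ, Sm G ∧ ∀ p v w, dd G p v ⬝ᵥ dd G p w = g.g p v w := by
  obtain ⟨C⟩ := exists_calc g
  obtain ⟨T⟩ := exists_crit g
  obtain ⟨K, hK⟩ := perturb C
  obtain ⟨B, CK, hB, hT⟩ := exists_twp C T K
  obtain ⟨B', hB'⟩ := twist_bd C B CK hB K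
  obtain ⟨σ, hσ, hP⟩ := hK B' (1 / (100 * B ^ 3)) (by positivity)
  obtain ⟨t0, ht0, hI⟩ := twist_iso C hσ
  obtain ⟨Φ, a, Δ, H⟩ := hT (min (min t0 σ) 1) (by positivity)
  have h1 := hB' _ Φ a Δ (min_le_right _ _) H
  have h2 := hI B CK K _ Φ a Δ ((min_le_left _ _).trans (min_le_left _ _)) H
  have h3 := twist_geo C B CK hB K hσ ((min_le_left _ _).trans (min_le_right _ _))
    (min_le_right _ _) H
  have h4 : ∀ᶠ ε in 𝓝[>] (0 : ℝ), 1 ≤ ε⁻¹ := by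
    filter_upwards [Ioc_mem_nhdsGT (zero_lt_one' ℝ)] with ε hε
    exact (one_le_inv₀ hε.1).2 hε.2
  obtain ⟨ε, ⟨⟨⟨e1, e2⟩, e3⟩, e4⟩, e5⟩ := ((((h1.and h2).and h3).and h4).and H.del).exists
  obtain ⟨G, hG, hG'⟩ := hP ε⁻¹ _ e4 (Fe_sm (H.Φ_sm.add' e5.1) H.a_sm ε) e1.1 e1.2 e3 e2
  exact ⟨G, hG, C.isometric_of hG'⟩

/-- the statement of S0335 -/
theorem main (g : Bundle.ContMDiffRiemannianMetric (𝓡 2) ∞ E2 (TangentSpace (𝓡 2) : M → Type)) :
    ∃ F : M → EuclideanSpace ℝ (Fin 4),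
      ContMDiff (𝓡 2) 𝓘(ℝ, EuclideanSpace ℝ (Fin 4)) ∞ F ∧
      ∀ (p : M) (v w : TangentSpace (𝓡 2) p),
        @inner ℝ (EuclideanSpace ℝ (Fin 4)) _ (mfderiv (𝓡 2) 𝓘(ℝ, EuclideanSpace ℝ (Fin 4)) F p v)
          (mfderiv (𝓡 2) 𝓘(ℝ, EuclideanSpace ℝ (Fin 4)) F p w) = g.inner p v w := by
  obtain ⟨g', hg'⟩ := exists_met g
  obtain ⟨G, hG, h⟩ := exists_isometric g'
  let L : (Fin 4 → ℝ) →L[ℝ] EuclideanSpace ℝ (Fin 4) :=
    (EuclideanSpace.equiv (Fin 4) ℝ).symm.toContinuousLinearMap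
  refine ⟨fun p => L (G p), hG.clm L, fun p v w => ?_⟩
  have e1 := dd_clm L (hG.df p) v
  have e2 := dd_clm L (hG.df p) w
  have e3 := h p v w
  rw [← hg', ← e3]
  change @inner ℝ (EuclideanSpace ℝ (Fin 4)) _ (dd (fun p => L (G p)) p v)
    (dd (fun p => L (G p)) p w) = _
  rw [e1, e2]
  simp [L, EuclideanSpace.inner_eq_star_dotProduct, dotProduct_comm]

end Crest.Agent.R216
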