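import Crest.Agent.R216.TLink
import Crest.Agent.R216.TMorse
import Crest.Agent.R216.TMove
/-!
# R216 (T): a Morse function and a 2-form with simple zeros exactly at the critical points

Recipe.  Strong induction on `ncard D`, `D = {Ω = 0, dd f ≠ 0}` (finite by `GoodF.finite`), starting from `exists_generic`.
If `p ∈ D`, `S = connectedComponent p` is clopen (`ChartedSpace.locallyConnectedSpace`, `isClopen_connectedComponent`), so there is
`q ∈ D ∩ S`, `q ≠ p`.  `O = S \ {Ω = 0}` is open and nonempty (an open nonempty set of the plane is infinite: `infinite_of_mem_nhds`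
in a chart).  `Morse.birth` in `O` gives `a, b`; `GoodF.move` moves `p` to `a`, then `q` to `b`.  The new `D` is `D \ {p, q}`;
a clopen set contains both `p, q` or none (`IsClopen.connectedComponent_subset`).
-/

set_option autoImplicit false
open scoped Manifold ContDiff Topology Matrix
open Set Filter Function Metric

namespace Crest.Agent.R216
universe u

variable {M : Type u} [TopologicalSpace M] [ChartedSpace E2 M] [IsManifold (𝓡 2) ∞ M]
  [T2Space M] [CompactSpace M]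

omit [IsManifold (𝓡 2) ∞ M] [T2Space M] [CompactSpace M] in
theorem tbal_open (p : M) : IsOpen (connectedComponent p) := by
  have := ChartedSpace.locallyConnectedSpace E2 M
  exact isOpen_connectedComponent

omit [IsManifold (𝓡 2) ∞ M] [T2Space M] [CompactSpace M] in
theorem tbal_infinite {p : M} {S : Set M} (hS : S ∈ 𝓝 p) : S.Infinite := by
  have h1 : chartAt E2 p '' S ∈ 𝓝 (chartAt E2 p p) :=
    (chartAt E2 p).image_mem_nhds (mem_chart_source E2 p) hS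
  exact (infinite_of_mem_nhds _ h1).of_image _

theorem bal_step {f : M → ℝ} {Ω : M → ℂ} (hf : Morse f) (hΩ : GoodF Ω)
    (hz : ∀ p, dd f p = 0 → Ω p = 0) {p q : M} (hpq : p ≠ q) (hc : q ∈ connectedComponent p)
    (hp : Ω p = 0 ∧ dd f p ≠ 0) (hq : Ω q = 0 ∧ dd f q ≠ 0) :
    ∃ (f' : M → ℝ) (Ω' : M → ℂ), Morse f' ∧ GoodF Ω' ∧ (∀ x, dd f' x = 0 → Ω' x = 0) ∧
      {x | Ω' x = 0 ∧ dd f' x ≠ 0} = {x | Ω x = 0 ∧ dd f x ≠ 0} \ {p, q} := by
  have hZ := hΩ.finite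
  have hO : IsOpen (connectedComponent p \ {x | Ω x = 0}) := (tbal_open p).sdiff hZ.isClosed
  obtain ⟨r, hr⟩ := ((tbal_infinite ((tbal_open p).mem_nhds mem_connectedComponent)).diff
    hZ).nonempty
  obtain ⟨f', a, b, hf', hab, ha, hb, hd⟩ := hf.birth hO hr fun h => hr.2 (hz r h)
  obtain ⟨Ω₁, h₁, hz₁⟩ := hΩ.move (A := {x | Ω x = 0} \ {p}) (p := p) (q := a) (hZ.subset diff_subset)
    (by rw [insert_diff_singleton, insert_eq_of_mem (by exact hp.1)]) (fun h => h.2 rfl)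
    (fun h => ha.2 h.1) ha.1
  have hq₁ : q ∈ insert a ({x | Ω x = 0} \ {p}) := Or.inr ⟨hq.1, hpq.symm⟩
  obtain ⟨Ω₂, h₂, hz₂⟩ := h₁.move (A := insert a ({x | Ω x = 0} \ {p}) \ {q}) (p := q) (q := b)
    (((hZ.subset diff_subset).insert a).subset diff_subset)
    (by rw [insert_diff_singleton, insert_eq_of_mem hq₁, hz₁]) (fun h => h.2 rfl)
    (fun h => h.1.elim hab.symm fun h' => hb.2 h'.1)
    (by rw [← connectedComponent_eq hc]; exact hb.1)
  have key : ∀ x, Ω₂ x = 0 ↔ x = b ∨ (x = a ∨ Ω x = 0 ∧ x ≠ p) ∧ x ≠ q := fun x =>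
    Set.ext_iff.1 hz₂ x
  refine ⟨f', Ω₂, hf', h₂, fun x hx => (key x).2 ?_, ?_⟩
  · rcases (hd x).1 hx with h | rfl | rfl
    · refine Or.inr ⟨Or.inr ⟨hz x h, ?_⟩, ?_⟩
      · rintro rfl
        exact hp.2 h
      · rintro rfl
        exact hq.2 h
    · refine Or.inr ⟨Or.inl rfl, ?_⟩
      rintro rfl
      exact ha.2 hq.1
    · exact Or.inl rfl
  · ext x
    simp only [mem_setOf_eq, mem_diff, mem_insert_iff, mem_singleton_iff, key, Ne, hd, not_or]
    constructor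
    · rintro ⟨h1 | ⟨h1 | h1, h2⟩, h3, h4, h5⟩
      · exact (h5 h1).elim
      · exact (h4 h1).elim
      · exact ⟨⟨h1.1, h3⟩, h1.2, h2⟩
    · rintro ⟨⟨h1, h2⟩, h3, h4⟩
      refine ⟨Or.inr ⟨Or.inr ⟨h1, h3⟩, h4⟩, h2, ?_, ?_⟩
      · rintro rfl
        exact ha.2 h1
      · rintro rfl
        exact hb.2 h1

theorem tbal_ind (n : ℕ) : ∀ (f : M → ℝ) (Ω : M → ℂ), Morse f → GoodF Ω →
    (∀ p, dd f p = 0 → Ω p = 0) →
    (∀ S : Set M, IsClopen S → Even {p | p ∈ S ∧ Ω p = 0 ∧ dd f p ≠ 0}.ncard) →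
    {x | Ω x = 0 ∧ dd f x ≠ 0}.ncard = n →
    ∃ (f : M → ℝ) (Ω : M → ℂ), Morse f ∧ GoodF Ω ∧ ∀ p, Ω p = 0 ↔ dd f p = 0 := by
  induction n using Nat.strong_induction_on with
  | _ n ih =>
  intro f Ω hf hΩ hz hev hn
  by_cases hD : ∃ p, Ω p = 0 ∧ dd f p ≠ 0
  swap
  · exact ⟨f, Ω, hf, hΩ, fun p => ⟨fun h => by_contra fun h' => hD ⟨p, h, h'⟩, hz p⟩⟩
  obtain ⟨p, hp⟩ := hD
  have hfin : ∀ S : Set M, {p | p ∈ S ∧ Ω p = 0 ∧ dd f p ≠ 0}.Finite := fun S =>
    hΩ.finite.subset fun x hx => hx.2.1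
  obtain ⟨q, ⟨hc, hq⟩, hqp⟩ : ∃ q ∈ {x | x ∈ connectedComponent p ∧ Ω x = 0 ∧ dd f x ≠ 0},
      q ≠ p := by
    refine exists_ne_of_one_lt_ncard ?_ p
    have h1 := hev _ ⟨isClosed_connectedComponent, tbal_open p⟩
    have h2 := (ncard_pos (hfin (connectedComponent p))).2 ⟨p, mem_connectedComponent, hp⟩
    obtain ⟨k, hk⟩ := h1
    omega
  obtain ⟨f', Ω', hf', hΩ', hz', hD'⟩ := bal_step hf hΩ hz hqp.symm hc hp hq
  have key : ∀ x, (Ω' x = 0 ∧ dd f' x ≠ 0) ↔ (Ω x = 0 ∧ dd f x ≠ 0) ∧ x ∉ ({p, q} : Set M) :=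
    fun x => Set.ext_iff.1 hD' x
  refine ih _ ?_ f' Ω' hf' hΩ' hz' (fun S hS => ?_) rfl
  · rw [hD', ← hn]
    refine ncard_lt_ncard ⟨diff_subset, fun h => (h hp).2 (Or.inl rfl)⟩
      (hΩ.finite.subset fun x hx => hx.1)
  · have e : {x | x ∈ S ∧ Ω' x = 0 ∧ dd f' x ≠ 0} =
        {x | x ∈ S ∧ Ω x = 0 ∧ dd f x ≠ 0} \ {p, q} := by
      ext x
      simp only [mem_setOf_eq, key, mem_diff, and_assoc]
    rw [e]
    by_cases hpS : p ∈ S
    · have hqS : q ∈ S := hS.connectedComponent_subset hpS hc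
      have h1 : ({p, q} : Set M) ⊆ {x | x ∈ S ∧ Ω x = 0 ∧ dd f x ≠ 0} := by
        rintro x (rfl | rfl)
        · exact ⟨hpS, hp⟩
        · exact ⟨hqS, hq⟩
      have h2 := ncard_diff_add_ncard_of_subset h1 (hfin S)
      rw [ncard_pair hqp.symm] at h2
      obtain ⟨k, hk⟩ := hev S hS
      exact ⟨k - 1, by omega⟩
    · have hqS : q ∉ S := fun h => hpS (hS.connectedComponent_subset h
        (by rw [← connectedComponent_eq hc]; exact mem_connectedComponent))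
      rw [sdiff_eq_left.2]
      · exact hev S hS
      · refine disjoint_right.2 ?_
        rintro x (rfl | rfl)
        · exact fun h => hpS h.1
        · exact fun h => hqS h.1

theorem balance : ∃ (f : M → ℝ) (Ω : M → ℂ), Morse f ∧ GoodF Ω ∧ ∀ p, Ω p = 0 ↔ dd f p = 0 := by
  obtain ⟨f, Ω, hf, hΩ, hz, hev⟩ := exists_generic (M := M)
  exact tbal_ind _ f Ω hf hΩ hz hev rfl

end Crest.Agent.R216
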