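import Crest.Agent.R216.TDeg
import Crest.Agent.R216.TSard
/-!
# R216 (T): a map from a closed manifold to a vector space of the same dimension has an even number of regular zeros

Recipe.  `Good g` := continuous, `C¹` in every chart, zeros regular in every chart.  A good `g` has finitely many zeros
(`finite_reg` on the compact sets `e i '' tsupport (ψ i)`, which cover).  Step: for good `g`, `k`, `w₀`, there is `w` with
`‖w - w₀‖ < 1` and `g + ψ k • w` good (`param_sard` in every chart `j` on `target ∩ {ψ k ∘ symm ≠ 0}` with `P = F`,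
`L z = ψ k (symm z) • id`; where `ψ k = 0` the derivative of `ψ k ∘ symm` vanishes, `IsLocalMin.fderiv_eq_zero`; a.e. sets are
dense: `Measure.dense_of_ae`), and the parity is unchanged (`step_parity` in the chart `k` with
`K = e k '' tsupport (ψ k)`; off `tsupport (ψ k)` the zeros agree; `ncard` through the injective chart).
`Finset` induction on the set of indices; with `‖w₀‖ > sup ‖g‖ + 1` the last map has no zero.
`even_zeros_clopen`: apply to `g' = S.piecewise g (fun _ => w)`, `w ≠ 0` (locally `g` or constant).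
-/

set_option autoImplicit false
open scoped Topology
open Set Filter Function

namespace Crest.Agent.R216

variable {X : Type*} [TopologicalSpace X] [T2Space X] [CompactSpace X]
  {E F : Type} [NormedAddCommGroup E] [NormedSpace ℝ E] [FiniteDimensional ℝ E]
  [NormedAddCommGroup F] [NormedSpace ℝ F] [FiniteDimensional ℝ F] [Nontrivial F]
  {ι : Type} [Fintype ι]

/-- continuous, `C¹` in the charts, regular zeros -/
structure tpar_Good {X E F ι : Type*} [TopologicalSpace X] [NormedAddCommGroup E] [NormedSpace ℝ E]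
    [NormedAddCommGroup F] [NormedSpace ℝ F] (e : ι → OpenPartialHomeomorph X E) (g : X → F) :
    Prop where
  cont : Continuous g
  sm : ∀ j, ContDiffOn ℝ 1 (g ∘ (e j).symm) (e j).target
  reg : ∀ j, ∀ x ∈ (e j).source, g x = 0 → Injective (fderiv ℝ (g ∘ (e j).symm) (e j x))

theorem tpar_image {X E F : Type*} [TopologicalSpace X] [TopologicalSpace E] [Zero F]
    (e : OpenPartialHomeomorph X E) {T : Set X} (hT : T ⊆ e.source) (g : X → F) :
    e '' {x | x ∈ T ∧ g x = 0} = {z | z ∈ e '' T ∧ (g ∘ e.symm) z = 0} := by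
  ext z
  constructor
  · rintro ⟨x, ⟨hx, h0⟩, rfl⟩
    refine ⟨mem_image_of_mem _ hx, ?_⟩
    simp only [comp_apply, e.left_inv (hT hx), h0]
  · rintro ⟨⟨x, hx, rfl⟩, h0⟩
    simp only [comp_apply, e.left_inv (hT hx)] at h0
    exact ⟨x, ⟨hx, h0⟩, rfl⟩

theorem tpar_ncard {X E F : Type*} [TopologicalSpace X] [TopologicalSpace E] [Zero F]
    (e : OpenPartialHomeomorph X E) {T : Set X} (hT : T ⊆ e.source) (g : X → F) :
    {x | x ∈ T ∧ g x = 0}.ncard = {z | z ∈ e '' T ∧ (g ∘ e.symm) z = 0}.ncard := by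
  rw [← tpar_image e hT g, InjOn.ncard_image (e.injOn.mono fun x hx => hT hx.1)]

omit [T2Space X] [CompactSpace X] [FiniteDimensional ℝ E] [FiniteDimensional ℝ F] [Nontrivial F]
  [Fintype ι] in
theorem tpar_reg' {e : ι → OpenPartialHomeomorph X E} {g : X → F} (hg : tpar_Good e g) (j : ι) :
    ∀ z ∈ (e j).target, (g ∘ (e j).symm) z = 0 → Injective (fderiv ℝ (g ∘ (e j).symm) z) := by
  intro z hz h0
  have := hg.reg j _ ((e j).map_target hz) h0
  rwa [(e j).right_inv hz] at this

omit [T2Space X] [FiniteDimensional ℝ F] [Nontrivial F] in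
theorem tpar_fin {e : ι → OpenPartialHomeomorph X E} {ψ : ι → X → ℝ}
    (hψ1 : ∀ x, ∑ i, ψ i x = 1) (hψs : ∀ i, tsupport (ψ i) ⊆ (e i).source)
    {g : X → F} (hg : tpar_Good e g) : {x | g x = 0}.Finite := by
  have h1 : ∀ i, {x | x ∈ tsupport (ψ i) ∧ g x = 0}.Finite := fun i => by
    have hc : IsCompact (tsupport (ψ i)) := (isClosed_tsupport _).isCompact
    have hK : IsCompact (e i '' tsupport (ψ i)) :=
      hc.image_of_continuousOn ((e i).continuousOn.mono (hψs i))
    have hKU : e i '' tsupport (ψ i) ⊆ (e i).target := by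
      rintro _ ⟨x, hx, rfl⟩
      exact (e i).map_source (hψs i hx)
    have h2 := finite_reg (e i).open_target (hg.sm i) hK hKU
      fun z hz => tpar_reg' hg i z (hKU hz)
    rw [← tpar_image (e i) (hψs i) g] at h2
    exact h2.of_finite_image ((e i).injOn.mono fun x hx => hψs i hx.1)
  refine (finite_iUnion h1).subset fun x hx => ?_
  obtain ⟨i, -, hi⟩ := Finset.exists_ne_zero_of_sum_ne_zero (s := Finset.univ)
    (f := fun i => ψ i x) (by rw [hψ1 x]; exact one_ne_zero)
  exact mem_iUnion.2 ⟨i, subset_tsupport _ hi, hx⟩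

omit [T2Space X] [Nontrivial F] in
theorem tpar_parity (hdim : Module.finrank ℝ E = Module.finrank ℝ F)
    {e : ι → OpenPartialHomeomorph X E} {ψ : ι → X → ℝ}
    (hψ1 : ∀ x, ∑ i, ψ i x = 1) (hψs : ∀ i, tsupport (ψ i) ⊆ (e i).source)
    {g g' : X → F} (hg : tpar_Good e g) (hg' : tpar_Good e g') (k : ι)
    (heq : ∀ x, x ∉ tsupport (ψ k) → g x = g' x) :
    Even ({x | g x = 0}.ncard + {x | g' x = 0}.ncard) := by
  have hc : IsCompact (tsupport (ψ k)) := (isClosed_tsupport _).isCompact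
  have hK : IsCompact (e k '' tsupport (ψ k)) :=
    hc.image_of_continuousOn ((e k).continuousOn.mono (hψs k))
  have hKU : e k '' tsupport (ψ k) ⊆ (e k).target := by
    rintro _ ⟨x, hx, rfl⟩
    exact (e k).map_source (hψs k hx)
  have h1 := step_parity hdim (e k).open_target (hg.sm k) (hg'.sm k) hK hKU
    (fun z hz hzK => heq _ fun hx => hzK ⟨_, hx, (e k).right_inv hz⟩)
    (tpar_reg' hg k) (tpar_reg' hg' k)
  rw [← tpar_ncard (e k) (hψs k) g, ← tpar_ncard (e k) (hψs k) g'] at h1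
  have h2 := ncard_inter_add_ncard_diff_eq_ncard {x | g x = 0} (tsupport (ψ k))
    (tpar_fin hψ1 hψs hg)
  have h3 := ncard_inter_add_ncard_diff_eq_ncard {x | g' x = 0} (tsupport (ψ k))
    (tpar_fin hψ1 hψs hg')
  have e1 : ∀ f : X → F, {x | f x = 0} ∩ tsupport (ψ k) = {x | x ∈ tsupport (ψ k) ∧ f x = 0} :=
    fun f => by ext x; simp [and_comm]
  have e2 : {x | g' x = 0} \ tsupport (ψ k) = {x | g x = 0} \ tsupport (ψ k) := by
    ext x
    simp only [mem_diff, mem_setOf_eq]
    exact and_congr_left fun hx => by rw [heq x hx]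
  rw [e1] at h2 h3
  rw [e2] at h3
  rw [← h2, ← h3]
  obtain ⟨r, hr⟩ := h1
  exact ⟨r + ({x | g x = 0} \ tsupport (ψ k)).ncard, by omega⟩

omit [T2Space X] [CompactSpace X] [Nontrivial F] in
theorem tpar_step (hdim : Module.finrank ℝ E = Module.finrank ℝ F)
    {e : ι → OpenPartialHomeomorph X E} {φ : X → ℝ} (hφc : Continuous φ) (hφ0 : ∀ x, 0 ≤ φ x)
    (hφ : ∀ j, ContDiffOn ℝ 1 (φ ∘ (e j).symm) (e j).target)
    {g : X → F} (hg : tpar_Good e g) (w₀ : F) :
    ∃ w, ‖w - w₀‖ < 1 ∧ tpar_Good e fun x => g x + φ x • w := by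
  borelize F
  have hae : ∀ᵐ w ∂(MeasureTheory.Measure.addHaar : MeasureTheory.Measure F), ∀ j,
      ∀ z ∈ (e j).target ∩ (φ ∘ (e j).symm) ⁻¹' {0}ᶜ,
        (g ∘ (e j).symm) z + ((φ ∘ (e j).symm) z • ContinuousLinearMap.id ℝ F) w = 0 →
        Injective (fderiv ℝ (fun y => (g ∘ (e j).symm) y +
          ((φ ∘ (e j).symm) y • ContinuousLinearMap.id ℝ F) w) z) := by
    refine MeasureTheory.ae_all_iff.2 fun j => ?_
    refine param_sard _ hdim ((hφ j).continuousOn.isOpen_inter_preimage (e j).open_target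
      isOpen_compl_singleton) ((hg.sm j).mono inter_subset_left)
      (((hφ j).mono inter_subset_left).smul contDiffOn_const) fun z hz v => ?_
    have h0 : (φ ∘ (e j).symm) z ≠ 0 := hz.2
    refine ⟨((φ ∘ (e j).symm) z)⁻¹ • v, ?_⟩
    rw [ContinuousLinearMap.smul_apply, ContinuousLinearMap.id_apply, smul_smul,
      mul_inv_cancel₀ h0, one_smul]
  obtain ⟨w, hw, hw1⟩ := (MeasureTheory.Measure.dense_of_ae hae).exists_mem_open
    (Metric.isOpen_ball (x := w₀) (ε := 1)) ⟨w₀, Metric.mem_ball_self one_pos⟩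
  refine ⟨w, by rwa [← dist_eq_norm], hg.cont.add (hφc.smul continuous_const),
    fun j => (hg.sm j).add ((hφ j).smul contDiffOn_const), fun j x hx h0 => ?_⟩
  have hz : e j x ∈ (e j).target := (e j).map_source hx
  by_cases hφx : φ x = 0
  · have hg0 : g x = 0 := by simpa [hφx] using h0
    have hn : (e j).target ∈ 𝓝 (e j x) := (e j).open_target.mem_nhds hz
    have d1 : DifferentiableAt ℝ (g ∘ (e j).symm) (e j x) :=
      ((hg.sm j).contDiffAt hn).differentiableAt one_ne_zero
    have d2 : DifferentiableAt ℝ (φ ∘ (e j).symm) (e j x) :=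
      ((hφ j).contDiffAt hn).differentiableAt one_ne_zero
    have hmin : IsLocalMin (φ ∘ (e j).symm) (e j x) := Eventually.of_forall fun y => by
      simp only [comp_apply, (e j).left_inv hx, hφx]
      exact hφ0 _
    have d3 : HasFDerivAt (φ ∘ (e j).symm) (0 : E →L[ℝ] ℝ) (e j x) := by
      rw [← hmin.fderiv_eq_zero]
      exact d2.hasFDerivAt
    have d4 := (d1.hasFDerivAt.add (d3.smul_const w)).fderiv
    have e1 : ((fun x => g x + φ x • w) ∘ (e j).symm) =
        g ∘ (e j).symm + fun y => (φ ∘ (e j).symm) y • w := rfl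
    rw [e1, d4]
    simpa using hg.reg j x hx hg0
  · refine hw j (e j x) ⟨hz, ?_⟩ ?_
    · simpa [(e j).left_inv hx] using hφx
    · simpa [(e j).left_inv hx] using h0

theorem even_zeros (hdim : Module.finrank ℝ E = Module.finrank ℝ F)
    (e : ι → OpenPartialHomeomorph X E) (ψ : ι → X → ℝ) (hψc : ∀ i, Continuous (ψ i))
    (hψ0 : ∀ i x, 0 ≤ ψ i x) (hψ1 : ∀ x, ∑ i, ψ i x = 1) (hψs : ∀ i, tsupport (ψ i) ⊆ (e i).source)
    (hψ : ∀ i j, ContDiffOn ℝ 1 (ψ i ∘ (e j).symm) (e j).target)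
    {g : X → F} (hgc : Continuous g) (hg : ∀ j, ContDiffOn ℝ 1 (g ∘ (e j).symm) (e j).target)
    (hr : ∀ j, ∀ x ∈ (e j).source, g x = 0 → Injective (fderiv ℝ (g ∘ (e j).symm) (e j x))) :
    Even {x | g x = 0}.ncard := by
  classical
  have hG : tpar_Good e g := ⟨hgc, hg, hr⟩
  obtain ⟨B, hB⟩ := isCompact_univ.exists_bound_of_continuousOn hgc.continuousOn
  obtain ⟨w₀, hw₀⟩ := NormedSpace.exists_lt_norm ℝ F (B + 1)
  have key : ∀ s : Finset ι, ∃ g' : X → F, tpar_Good e g' ∧
      Even ({x | g x = 0}.ncard + {x | g' x = 0}.ncard) ∧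
      ∀ x, ‖g' x - (g x + (∑ i ∈ s, ψ i x) • w₀)‖ ≤ ∑ i ∈ s, ψ i x := by
    intro s
    induction s using Finset.induction_on with
    | empty => exact ⟨g, hG, ⟨_, rfl⟩, fun x => by simp⟩
    | insert k s hk ih =>
      obtain ⟨g', hg', hev, hb⟩ := ih
      obtain ⟨w, hw, hg''⟩ := tpar_step hdim (hψc k) (hψ0 k) (hψ k) hg' w₀
      refine ⟨_, hg'', ?_, fun x => ?_⟩
      · have h1 := tpar_parity hdim hψ1 hψs hg' hg'' k fun x hx => by
          rw [image_eq_zero_of_notMem_tsupport hx, zero_smul, add_zero]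
        obtain ⟨a, ha⟩ := hev
        obtain ⟨b, hb⟩ := h1
        rw [Nat.even_iff]
        omega
      · rw [Finset.sum_insert hk]
        have e1 : g' x + ψ k x • w - (g x + (ψ k x + ∑ i ∈ s, ψ i x) • w₀) =
            ψ k x • (w - w₀) + (g' x - (g x + (∑ i ∈ s, ψ i x) • w₀)) := by
          rw [add_smul, smul_sub]
          abel
        rw [e1]
        refine (norm_add_le _ _).trans (add_le_add ?_ (hb x))
        rw [norm_smul, Real.norm_of_nonneg (hψ0 k x)]
        exact mul_le_of_le_one_right (hψ0 k x) hw.le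
  obtain ⟨g', -, hev, hb⟩ := key Finset.univ
  have h0 : {x | g' x = 0} = ∅ := by
    refine eq_empty_of_forall_notMem fun x hx => ?_
    have h1 := hb x
    rw [hψ1 x, one_smul, show g' x = 0 from hx, zero_sub, norm_neg] at h1
    have h2 := hB x (mem_univ x)
    have h3 : ‖w₀‖ ≤ ‖g x + w₀‖ + ‖g x‖ := by
      have := norm_sub_le (g x + w₀) (g x)
      rwa [add_sub_cancel_left] at this
    linarith
  rwa [h0, ncard_empty, add_zero] at hev

theorem even_zeros_clopen (hdim : Module.finrank ℝ E = Module.finrank ℝ F)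
    (e : ι → OpenPartialHomeomorph X E) (ψ : ι → X → ℝ) (hψc : ∀ i, Continuous (ψ i))
    (hψ0 : ∀ i x, 0 ≤ ψ i x) (hψ1 : ∀ x, ∑ i, ψ i x = 1) (hψs : ∀ i, tsupport (ψ i) ⊆ (e i).source)
    (hψ : ∀ i j, ContDiffOn ℝ 1 (ψ i ∘ (e j).symm) (e j).target)
    {g : X → F} (hgc : Continuous g) (hg : ∀ j, ContDiffOn ℝ 1 (g ∘ (e j).symm) (e j).target)
    {S : Set X} (hS : IsClopen S)
    (hr : ∀ j, ∀ x ∈ (e j).source, x ∈ S → g x = 0 →
      Injective (fderiv ℝ (g ∘ (e j).symm) (e j x))) :
    Even {x | x ∈ S ∧ g x = 0}.ncard := by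
  classical
  obtain ⟨w, hw⟩ := exists_ne (0 : F)
  have hin : ∀ j, ∀ z ∈ (e j).target, (e j).symm z ∈ S →
      S.piecewise g (fun _ => w) ∘ (e j).symm =ᶠ[𝓝 z] g ∘ (e j).symm := fun j z hz hzS => by
    filter_upwards [((e j).continuousAt_symm hz).preimage_mem_nhds (hS.isOpen.mem_nhds hzS)]
      with y hy
    exact piecewise_eq_of_mem _ _ _ hy
  have hout : ∀ j, ∀ z ∈ (e j).target, (e j).symm z ∉ S →
      S.piecewise g (fun _ => w) ∘ (e j).symm =ᶠ[𝓝 z] fun _ => w := fun j z hz hzS => by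
    filter_upwards [((e j).continuousAt_symm hz).preimage_mem_nhds
      (hS.isClosed.isOpen_compl.mem_nhds hzS)] with y hy
    exact piecewise_eq_of_notMem _ _ _ hy
  have hz : ∀ x, S.piecewise g (fun _ => w) x = 0 ↔ x ∈ S ∧ g x = 0 := fun x => by
    by_cases hx : x ∈ S
    · simp [hx]
    · simp [hx, hw]
  have h := even_zeros hdim e ψ hψc hψ0 hψ1 hψs hψ (g := S.piecewise g fun _ => w)
    (hgc.piecewise (fun a ha => by simp [hS.frontier_eq] at ha) continuous_const)
    (fun j z hzt => by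
      by_cases hzS : (e j).symm z ∈ S
      · exact (((hg j).contDiffAt ((e j).open_target.mem_nhds hzt)).congr_of_eventuallyEq
          (hin j z hzt hzS)).contDiffWithinAt
      · exact (contDiffAt_const.congr_of_eventuallyEq (hout j z hzt hzS)).contDiffWithinAt)
    fun j x hx h0 => by
      obtain ⟨hxS, hg0⟩ := (hz x).1 h0
      rw [(hin j _ ((e j).map_source hx) (by rwa [(e j).left_inv hx])).fderiv_eq]
      exact hr j x hx hxS hg0
  simpa only [hz] using h

end Crest.Agent.R216
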