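import Crest.Agent.R216.TChart
import Crest.Agent.R216.TPar
import Crest.Agent.R216.TLoc
/-!
# R216 (T): a generic immersion in `ℝ⁴` is tangent to a fixed vector at an even number of points

Recipe.  `even_prod`: `exists_atlas`, `even_zeros_clopen` on `X = M × M` with the charts `(e i).prod (e j)`, the functions
`ψ i x.1 * ψ j x.2`, `g x = G x.1 - G x.2 - w`, `S ×ˢ S`; in a chart `g` is `z ↦ (G ∘ symm) z.1 - (G ∘ symm') z.2 - w`; use
`IsCh.dd_eq`, `IsCh.bij`.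
`loc_transfer`: the sets `(e.source ∩ e ⁻¹' ball a r) ×ˢ (e'.source ∩ e' ⁻¹' ball a' r)` are neighbourhoods; `e.left_inv`.
`even_tangent`: `count_lim` on `M × M`, `l = 𝓝[>] 0`, `Z t = {x ∈ S ×ˢ S | G x.1 - G x.2 = t • v}`,
`I = D ∪ Δ`, `D = {x ∈ S ×ˢ S | x.1 ≠ x.2 ∧ G x.1 = G x.2}`, `Δ = (fun p => (p, p)) '' {p ∈ S | tangent}`.
Points outside `I`: outside `S ×ˢ S` (closed); `G x.1 ≠ G x.2` (continuity); diagonal without tangency (`loc_diag0`).
Points of `I`: `loc_dbl`, `loc_diag1` + `loc_transfer`.  Transversality of all solutions: `eventually_all`.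
Then `even_prod`, `even_swap`, `Set.ncard_union_eq`, `Set.ncard_image_of_injective`.
-/

set_option autoImplicit false
open scoped Manifold ContDiff Topology Matrix
open Set Filter Function Metric

namespace Crest.Agent.R216
universe u

variable {M : Type u} [TopologicalSpace M] [ChartedSpace E2 M]
variable {T : Type} [NormedAddCommGroup T] [NormedSpace ℝ T] [FiniteDimensional ℝ T]

theorem loc_transfer {G : M → T} (hG : Sm G) {e e' : OpenPartialHomeomorph M E2} (he : IsCh e)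
    (he' : IsCh e') {p p' : M} (hp : p ∈ e.source) (hp' : p' ∈ e'.source) {v : T}
    (h : Loc1 (G ∘ e.symm) (G ∘ e'.symm) (e p) (e' p') v) :
    (∃ N ∈ 𝓝 (p, p'), ∀ᶠ t in 𝓝[>] (0 : ℝ),
      ({x : M × M | G x.1 - G x.2 = t • v} ∩ N).Subsingleton ∧
      ∀ x ∈ N, G x.1 - G x.2 = t • v → ∀ a b, dd G x.1 a = dd G x.2 b → a = 0 ∧ b = 0) ∧
    ∀ N ∈ 𝓝 (p, p'), ∀ᶠ t in 𝓝[>] (0 : ℝ),
      ({x : M × M | G x.1 - G x.2 = t • v} ∩ N).Nonempty := by
  obtain ⟨⟨r, hr, h1⟩, h2⟩ := h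
  constructor
  · refine ⟨{q | q ∈ e.source ∧ e q ∈ ball (e p) r} ×ˢ {q | q ∈ e'.source ∧ e' q ∈ ball (e' p') r},
      prod_mem_nhds (eventually_chart hp (ball_mem_nhds _ hr))
        (eventually_chart hp' (ball_mem_nhds _ hr)), ?_⟩
    filter_upwards [h1] with t ⟨a1, a2⟩
    have key : ∀ x : M × M, x.1 ∈ e.source → x.2 ∈ e'.source → G x.1 - G x.2 = t • v →
        (G ∘ e.symm) (e x.1) - (G ∘ e'.symm) (e' x.2) = t • v := fun x b1 b2 b3 => by
      rwa [comp_apply, comp_apply, e.left_inv b1, e'.left_inv b2]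
    constructor
    · rintro x ⟨b0, ⟨b1, b2⟩, b3, b4⟩ y ⟨c0, ⟨c1, c2⟩, c3, c4⟩
      have := a1 (x := (e x.1, e' x.2)) ⟨b2, b4, key x b1 b3 b0⟩ (y := (e y.1, e' y.2))
        ⟨c2, c4, key y c1 c3 c0⟩
      exact Prod.ext (e.injOn b1 c1 (congrArg Prod.fst this))
        (e'.injOn b3 c3 (congrArg Prod.snd this))
    · rintro x ⟨⟨b1, b2⟩, b3, b4⟩ b0 a b hab
      rw [he.dd_eq b1 (hG.df _), he'.dd_eq b3 (hG.df _)] at hab
      obtain ⟨c1, c2⟩ := a2 _ b2 _ b4 (key x b1 b3 b0) _ _ hab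
      exact ⟨(he.bij b1).1 (c1.trans (map_zero _).symm), (he'.bij b3).1 (c2.trans (map_zero _).symm)⟩
  · intro N hN
    obtain ⟨U, hU, U', hU', hUN⟩ := mem_nhds_prod_iff.1 hN
    obtain ⟨r₁, hr₁, a1⟩ := Metric.mem_nhds_iff.1 (eventually_symm hp hU)
    obtain ⟨r₂, hr₂, a2⟩ := Metric.mem_nhds_iff.1 (eventually_symm hp' hU')
    filter_upwards [h2 _ (lt_min hr₁ hr₂)] with t ⟨z, hz, z', hz', hzz⟩
    exact ⟨(e.symm z, e'.symm z'), hzz, hUN ⟨a1 (ball_subset_ball (min_le_left _ _) hz),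
      a2 (ball_subset_ball (min_le_right _ _) hz')⟩⟩

variable [IsManifold (𝓡 2) ∞ M] [T2Space M] [CompactSpace M]

theorem even_prod (hT : Module.finrank ℝ T = 4) {G : M → T} (hG : Sm G) {S : Set M}
    (hS : IsClopen S) (w : T)
    (htr : ∀ x ∈ S, ∀ y ∈ S, G x - G y = w → ∀ a b, dd G x a = dd G y b → a = 0 ∧ b = 0) :
    Even {x : M × M | x ∈ S ×ˢ S ∧ G x.1 - G x.2 = w}.ncard := by
  have : Nontrivial T := Module.nontrivial_of_finrank_pos (R := ℝ) (by omega)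
  obtain ⟨n, e, ψ, he, hψ, h0, h1, hs⟩ := exists_atlas (M := M)
  have c1 : ∀ {F : Type} [NormedAddCommGroup F] [NormedSpace ℝ F] {f : M → F}, Sm f → ∀ i j,
      ContDiffOn ℝ 1 (fun z : E2 × E2 => (f ∘ (e i).symm) z.1) ((e i).prod (e j)).target :=
    fun hf i j => (((he i).contDiffOn_symm hf).of_le (by simp)).comp contDiffOn_fst fun z hz => hz.1
  have c2 : ∀ {F : Type} [NormedAddCommGroup F] [NormedSpace ℝ F] {f : M → F}, Sm f → ∀ i j,
      ContDiffOn ℝ 1 (fun z : E2 × E2 => (f ∘ (e j).symm) z.2) ((e i).prod (e j)).target :=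
    fun hf i j => (((he j).contDiffOn_symm hf).of_le (by simp)).comp contDiffOn_snd fun z hz => hz.2
  have key := even_zeros_clopen (X := M × M) (E := E2 × E2) (F := T) (ι := Fin n × Fin n)
    (by rw [hT, Module.finrank_prod, finrank_euclideanSpace_fin])
    (fun i => (e i.1).prod (e i.2)) (fun i x => ψ i.1 x.1 * ψ i.2 x.2)
    (fun i => ((hψ _).cont.comp continuous_fst).mul ((hψ _).cont.comp continuous_snd))
    (fun i x => mul_nonneg (h0 _ _) (h0 _ _))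
    (fun x => by simp only [Fintype.sum_prod_type, ← Finset.mul_sum, h1, mul_one])
    (fun i => (closure_minimal (t := tsupport (ψ i.1) ×ˢ tsupport (ψ i.2))
      (fun x hx => ⟨subset_tsupport _ (left_ne_zero_of_mul hx),
      subset_tsupport _ (right_ne_zero_of_mul hx)⟩)
      ((isClosed_tsupport _).prod (isClosed_tsupport _))).trans (prod_mono (hs _) (hs _)))
    (fun i j => (c1 (hψ i.1) j.1 j.2).mul (c2 (hψ i.2) j.1 j.2))
    (g := fun x => G x.1 - G x.2 - w)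
    (((hG.cont.comp continuous_fst).sub (hG.cont.comp continuous_snd)).sub continuous_const)
    (fun j => ((c1 hG j.1 j.2).sub (c2 hG j.1 j.2)).sub contDiffOn_const) (hS.prod hS)
    (fun j x hx hxS h => by
      have d1 := (((he j.1).contDiffAt_symm hx.1 (hG _)).differentiableAt (by simp)).hasFDerivAt
      have d2 := (((he j.2).contDiffAt_symm hx.2 (hG _)).differentiableAt (by simp)).hasFDerivAt
      have d3 := ((HasFDerivAt.comp (f := Prod.fst) (e j.1 x.1, e j.2 x.2) d1 hasFDerivAt_fst).sub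
        (HasFDerivAt.comp (f := Prod.snd) (e j.1 x.1, e j.2 x.2) d2 hasFDerivAt_snd)).sub_const w
      refine (congrArg (fun L : E2 × E2 →L[ℝ] T => Injective L) d3.fderiv).mpr ?_
      refine (injective_iff_map_eq_zero _).2 fun ⟨a, b⟩ hab => ?_
      obtain ⟨α, rfl⟩ := ((he j.1).bij hx.1).2 a
      obtain ⟨β, rfl⟩ := ((he j.2).bij hx.2).2 b
      obtain ⟨rfl, rfl⟩ := htr _ hxS.1 _ hxS.2 (sub_eq_zero.1 h) α β (by
        rw [(he j.1).dd_eq hx.1 (hG.df _), (he j.2).dd_eq hx.2 (hG.df _)]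
        exact sub_eq_zero.1 hab)
      simp)
  simpa only [sub_eq_zero] using key

theorem even_tangent (hT : Module.finrank ℝ T = 4) {G : M → T} (hG : Sm G)
    (himm : ∀ p, Injective (dd G p)) (v : T)
    (htr : ∀ x y, x ≠ y → G x = G y → ∀ a b, dd G x a = dd G y b → a = 0 ∧ b = 0)
    (htan : ∀ p, (∃ ξ, dd G p ξ = v) → ∃ (e : OpenPartialHomeomorph M E2) (ξ : E2), IsCh e ∧
      p ∈ e.source ∧ fderiv ℝ (G ∘ e.symm) (e p) ξ = v ∧ ∀ η θ,
        fderiv ℝ (fderiv ℝ (G ∘ e.symm)) (e p) η ξ + fderiv ℝ (G ∘ e.symm) (e p) θ = 0 →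
        η = 0 ∧ θ = 0)
    {S : Set M} (hS : IsClopen S) : Even {p | p ∈ S ∧ ∃ ξ, dd G p ξ = v}.ncard := by
  let Z : ℝ → Set (M × M) := fun t => {x | x ∈ S ×ˢ S ∧ G x.1 - G x.2 = t • v}
  let D : Set (M × M) := {x | x ∈ S ×ˢ S ∧ x.1 ≠ x.2 ∧ G x.1 = G x.2}
  let P : Set M := {p | p ∈ S ∧ ∃ ξ, dd G p ξ = v}
  let Δ : Set (M × M) := (fun p => (p, p)) '' P
  have hSS : IsClopen (S ×ˢ S) := hS.prod hS
  have hI : ∀ x ∈ D ∪ Δ, x ∈ S ×ˢ S := by
    rintro x (hx | ⟨p, hp, rfl⟩)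
    · exact hx.1
    · exact ⟨hp.1, hp.1⟩
  have hA : ∀ x ∉ D ∪ Δ, ∃ N ∈ 𝓝 x, ∀ᶠ t in 𝓝[>] (0 : ℝ), Disjoint (Z t) N := by
    intro x hx
    by_cases h1 : x ∈ S ×ˢ S
    swap
    · exact ⟨(S ×ˢ S)ᶜ, hSS.isClosed.isOpen_compl.mem_nhds h1,
        Eventually.of_forall fun t => disjoint_left.2 fun y hy hy' => hy' hy.1⟩
    by_cases h2 : G x.1 = G x.2
    swap
    · have hc : Continuous fun y : ℝ × (M × M) => G y.2.1 - G y.2.2 - y.1 • v := by
        have := hG.cont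
        fun_prop
      have h3 : ∀ᶠ y in 𝓝 ((0 : ℝ), x), G y.2.1 - G y.2.2 - y.1 • v ≠ 0 :=
        hc.continuousAt.eventually_ne (by simpa [sub_eq_zero] using h2)
      rw [nhds_prod_eq, eventually_prod_iff] at h3
      obtain ⟨pa, hpa, pb, hpb, h4⟩ := h3
      refine ⟨{y | pb y}, hpb, (hpa.filter_mono nhdsWithin_le_nhds).mono fun t ht => ?_⟩
      exact disjoint_left.2 fun y hy hy' => h4 ht hy' (sub_eq_zero.2 hy.2)
    obtain ⟨p, p'⟩ := x
    obtain rfl : p = p' := by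
      by_contra hne
      exact hx (Or.inl ⟨h1, hne, h2⟩)
    have he := isCh_chartAt p
    have hp := mem_chart_source E2 p
    obtain ⟨r, hr, h3⟩ := loc_diag0 (he.contDiffAt_symm hp (hG p))
      ((he.dd_inj hp (hG.df p)).1 (himm p)) (v := v) (fun ξ hξ => by
        obtain ⟨ξ', rfl⟩ := (he.bij hp).2 ξ
        exact hx (Or.inr ⟨p, ⟨h1.1, ξ', (he.dd_eq hp (hG.df p) ξ').trans hξ⟩, rfl⟩))
    have hU := eventually_chart hp (P := fun z => z ∈ ball (chartAt E2 p p) r) (ball_mem_nhds _ hr)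
    refine ⟨_, prod_mem_nhds hU hU, ?_⟩
    filter_upwards [self_mem_nhdsWithin] with t ht
    refine disjoint_left.2 fun y hy hy' => h3 t ht _ hy'.1.2 _ hy'.2.2 ?_
    rw [comp_apply, comp_apply, (chartAt E2 p).left_inv hy'.1.1, (chartAt E2 p).left_inv hy'.2.1]
    exact hy.2
  have hB : ∀ x ∈ D ∪ Δ, ∃ e e' : OpenPartialHomeomorph M E2, IsCh e ∧ IsCh e' ∧
      x.1 ∈ e.source ∧ x.2 ∈ e'.source ∧
      Loc1 (G ∘ e.symm) (G ∘ e'.symm) (e x.1) (e' x.2) v := by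
    rintro ⟨p, p'⟩ (hx | ⟨q, hq, h⟩)
    · have he := isCh_chartAt p
      have hp := mem_chart_source E2 p
      have he' := isCh_chartAt p'
      have hp' := mem_chart_source E2 p'
      refine ⟨_, _, he, he', hp, hp', loc_dbl hT (he.contDiffAt_symm hp (hG p))
        (he'.contDiffAt_symm hp' (hG p')) ?_ (fun α β h => ?_) v⟩
      · rw [comp_apply, comp_apply, (chartAt E2 p).left_inv hp, (chartAt E2 p').left_inv hp']
        exact hx.2.2
      · obtain ⟨α', rfl⟩ := (he.bij hp).2 α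
        obtain ⟨β', rfl⟩ := (he'.bij hp').2 β
        obtain ⟨rfl, rfl⟩ := htr p p' hx.2.1 hx.2.2 α' β'
          ((he.dd_eq hp (hG.df p) α').trans (h.trans (he'.dd_eq hp' (hG.df p') β').symm))
        exact ⟨map_zero _, map_zero _⟩
    · obtain ⟨rfl, rfl⟩ := Prod.ext_iff.1 h
      obtain ⟨e, ξ, he, hp, h1, h2⟩ := htan q hq.2
      exact ⟨e, e, he, he, hp, hp, loc_diag1 hT (he.contDiffAt_symm hp (hG q)) h1 h2⟩
  have hC := fun x hx => by
    have h := hB x hx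
    exact h.choose_spec.choose_spec.elim fun he h => h.elim fun he' h => h.elim fun hp h =>
      h.elim fun hp' h => loc_transfer hG he he' hp hp' h
  obtain ⟨hfin, hcnt⟩ := count_lim (𝓝[>] (0 : ℝ)) Z (D ∪ Δ) hA (fun x hx => by
      obtain ⟨N, hN, h⟩ := (hC x hx).1
      exact ⟨N, hN, h.mono fun t ht => ht.1.anti fun y hy => ⟨hy.1.2, hy.2⟩⟩)
    (fun x hx N hN => by
      refine ((hC x hx).2 (N ∩ S ×ˢ S)
        (inter_mem hN (hSS.isOpen.mem_nhds (hI x hx)))).mono fun t ht => ?_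
      obtain ⟨y, h1, h2, h3⟩ := ht
      exact ⟨y, ⟨h3, h1⟩, h2⟩)
  have htrv := eventually_all (𝓝[>] (0 : ℝ))
    (fun t (y : M × M) => y ∈ Z t → ∀ a b, dd G y.1 a = dd G y.2 b → a = 0 ∧ b = 0) (fun x => by
      by_cases hx : x ∈ D ∪ Δ
      · obtain ⟨N, hN, h⟩ := (hC x hx).1
        exact ⟨N, hN, h.mono fun t ht y hy hy' => ht.2 y hy hy'.2⟩
      · obtain ⟨N, hN, h⟩ := hA x hx
        exact ⟨N, hN, h.mono fun t ht y hy hy' => absurd hy (disjoint_left.1 ht hy')⟩)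
  obtain ⟨t, h1, h2⟩ := (hcnt.and htrv).exists
  have h3 : Even (Z t).ncard :=
    even_prod hT hG hS (t • v) fun x hx y hy h => h2 (x, y) ⟨⟨hx, hy⟩, h⟩
  have hD : D.Finite := hfin.subset subset_union_left
  have h4 : Even D.ncard := even_swap hD
    (fun x hx => ⟨⟨hx.1.2, hx.1.1⟩, hx.2.1.symm, hx.2.2.symm⟩) fun x hx => hx.2.1
  have h5 : Disjoint D Δ := disjoint_left.2 fun x hx hx' => by
    obtain ⟨p, -, rfl⟩ := hx'
    exact hx.2.1 rfl
  rw [h1, ncard_union_eq h5 hD (hfin.subset subset_union_right),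
    ncard_image_of_injective _ fun a b h => congrArg Prod.fst h] at h3
  exact (Nat.even_add.1 h3).1 h4

end Crest.Agent.R216
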