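import Crest.Agent.R174.NL
import Crest.Agent.R174.PosDeg
/-!
# R216 (T): parity of the number of regular zeros under a compactly supported change

Recipe.  `deg_formula`: for each zero `z` take (inverse function theorem, `ContDiffAt.toOpenPartialHomeomorph` or
`HasStrictFDerivAt.toOpenPartialHomeomorph`, `map_nhds_eq_of_equiv`) an open `V z ⊆ K`, `z ∈ V z`, with `f` injective on
`V z`, `det (fderiv f)` of the constant sign `s z = ±1` on `V z`, the `V z` pairwise disjoint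
(`Set.Finite.t2_separation`), `f '' V z ∈ 𝓝 0`.  `‖f‖ ≥ δ₀ > 0` on the compact set `K \ ⋃ V z`.  For small `δ` the integral over `K`
is `∑ z, s z * ∫_{V z} |det| • φ (f x) = ∑ z, s z * ∫_{f '' V z} φ = (∑ s z) * ∫ φ`
(`integral_image_eq_integral_abs_det_fderiv_smul`, `setIntegral_eq_integral_of_forall_compl_eq_zero`).
`step_parity`: compose with `F ≃L E` (`ContinuousLinearEquiv.ofFinrankEq`); `K ⊆ interior K' ⊆ K' ⊆ U` compact
(`exists_compact_between`), globalise `f₀, f₁` by a cut-off `ρ = 1` near `K'` with support in `U`;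
zeros in `K'` are finite (regular zeros are isolated, `HasFDerivAt.eventually_ne`); remove from `K'` small open balls,
disjoint from `K`, around the zeros outside `K`, to get `K''`; apply `R174.nl` on `K''` and `deg_formula` twice
(`∫ φ > 0`: `Continuous.integral_pos_of_hasCompactSupport_nonneg_nonzero`).
-/

set_option autoImplicit false
open scoped Topology
open Set Filter Function MeasureTheory

namespace Crest.Agent.R216

theorem tdega_loc {E : Type} [NormedAddCommGroup E] [NormedSpace ℝ E] [FiniteDimensional ℝ E]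
    [MeasurableSpace E] [BorelSpace E] (μ : Measure E) [μ.IsAddHaarMeasure]
    {f : E → E} (hf : ContDiff ℝ 1 f) {z : E} (h0 : f z = 0) (hi : Injective (fderiv ℝ f z))
    {W : Set E} (hW : W ∈ 𝓝 z) :
    ∃ (V : Set E) (s : ℤ), IsOpen V ∧ z ∈ V ∧ V ⊆ W ∧ Odd s ∧ ∀ᶠ δ in 𝓝[>] (0 : ℝ),
      ∫ x in V, max 0 (δ - ‖f x‖) * (fderiv ℝ f x).det ∂μ = s * ∫ y, max 0 (δ - ‖y‖) ∂μ := by
  have := FiniteDimensional.complete ℝ E
  let L : E ≃L[ℝ] E :=
    (LinearEquiv.ofInjectiveEndo (fderiv ℝ f z : E →ₗ[ℝ] E) hi).toContinuousLinearEquiv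
  have hL : (L : E →L[ℝ] E) = fderiv ℝ f z := ContinuousLinearMap.ext fun _ => rfl
  have hs : HasStrictFDerivAt f (L : E →L[ℝ] E) z := by
    rw [hL]
    exact hf.contDiffAt.hasStrictFDerivAt one_ne_zero
  have hdet : (fderiv ℝ f z).det ≠ 0 := by
    rw [← hL]
    exact L.toLinearEquiv.isUnit_det'.ne_zero
  have hc : Continuous fun x => (fderiv ℝ f x).det :=
    ContinuousLinearMap.continuous_det.comp (hf.continuous_fderiv one_ne_zero)
  obtain ⟨s, hs1, hs2⟩ : ∃ s : ℤ, (s = 1 ∨ s = -1) ∧ 0 < (s : ℝ) * (fderiv ℝ f z).det := by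
    rcases hdet.lt_or_gt with h | h
    · exact ⟨-1, Or.inr rfl, by simpa using h⟩
    · exact ⟨1, Or.inl rfl, by simpa using h⟩
  let V : Set E := interior W ∩ (hs.toOpenPartialHomeomorph f).source ∩
    {x | 0 < (s : ℝ) * (fderiv ℝ f x).det}
  have hV : IsOpen V := (isOpen_interior.inter (hs.toOpenPartialHomeomorph f).open_source).inter
    (isOpen_lt continuous_const (continuous_const.mul hc))
  have hzV : z ∈ V := ⟨⟨mem_interior_iff_mem_nhds.2 hW, hs.mem_toOpenPartialHomeomorph_source⟩, hs2⟩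
  have hinj : InjOn f V := (hs.toOpenPartialHomeomorph f).injOn.mono fun x hx => hx.1.2
  have him : f '' V ∈ 𝓝 (0 : E) := by
    rw [← h0, ← hs.map_nhds_eq_of_equiv]
    exact image_mem_map (hV.mem_nhds hzV)
  obtain ⟨r, hr, hball⟩ := Metric.mem_nhds_iff.1 him
  refine ⟨V, s, hV, hzV, fun x hx => interior_subset hx.1.1, ?_, ?_⟩
  · rcases hs1 with rfl | rfl <;> decide
  filter_upwards [Ioo_mem_nhdsGT hr] with δ hδ
  rw [← setIntegral_eq_integral_of_forall_compl_eq_zero (μ := μ) (s := f '' V) (fun y hy => ?_),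
    integral_image_eq_integral_abs_det_fderiv_smul μ hV.measurableSet
      (fun x _ => ((hf.differentiable one_ne_zero) x).hasFDerivAt.hasFDerivWithinAt) hinj,
    ← integral_const_mul]
  · refine setIntegral_congr_fun hV.measurableSet fun x hx => ?_
    have h2 : 0 < (s : ℝ) * (fderiv ℝ f x).det := hx.2
    rcases hs1 with rfl | rfl
    · rw [abs_of_pos (by simpa using h2), smul_eq_mul]
      push_cast
      ring
    · rw [abs_of_neg (by simpa using h2), smul_eq_mul]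
      push_cast
      ring
  · refine max_eq_left ?_
    have : r ≤ ‖y‖ := by
      by_contra h
      exact hy (hball (mem_ball_zero_iff.2 (not_le.1 h)))
    linarith [hδ.2]

theorem deg_formula {E : Type} [NormedAddCommGroup E] [NormedSpace ℝ E] [FiniteDimensional ℝ E]
    [MeasurableSpace E] [BorelSpace E] (μ : Measure E) [μ.IsAddHaarMeasure]
    {f : E → E} (hf : ContDiff ℝ 1 f) {K : Set E} (hK : IsCompact K)
    (hz : ∀ x ∈ K, f x = 0 → x ∈ interior K ∧ Injective (fderiv ℝ f x))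
    (hfin : {x | x ∈ K ∧ f x = 0}.Finite) :
    ∃ n : ℤ, Even (n - ({x | x ∈ K ∧ f x = 0}.ncard : ℤ)) ∧ ∀ᶠ δ in 𝓝[>] (0 : ℝ),
      ∫ x in K, max 0 (δ - ‖f x‖) * (fderiv ℝ f x).det ∂μ = n * ∫ y, max 0 (δ - ‖y‖) ∂μ := by
  classical
  obtain ⟨U, hU, hUd⟩ := hfin.t2_separation
  have hex : ∀ z, ∃ (V : Set E) (s : ℤ), z ∈ hfin.toFinset → IsOpen V ∧ z ∈ V ∧ V ⊆ U z ∩ K ∧ Odd s ∧
      ∀ᶠ δ in 𝓝[>] (0 : ℝ), ∫ x in V, max 0 (δ - ‖f x‖) * (fderiv ℝ f x).det ∂μ =
        s * ∫ y, max 0 (δ - ‖y‖) ∂μ := by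
    intro z
    by_cases h : z ∈ hfin.toFinset
    · have h' := hfin.mem_toFinset.1 h
      obtain ⟨V, s, hV⟩ := tdega_loc μ hf h'.2 (hz z h'.1 h'.2).2
        (inter_mem ((hU z).2.mem_nhds (hU z).1) (mem_interior_iff_mem_nhds.1 (hz z h'.1 h'.2).1))
      exact ⟨V, s, fun _ => hV⟩
    · exact ⟨∅, 0, fun h' => absurd h' h⟩
  choose V s hV using hex
  have hO : IsOpen (⋃ z ∈ hfin.toFinset, V z) := isOpen_biUnion fun z h => (hV z h).1
  obtain ⟨δ₀, hδ₀, hlow⟩ := (hK.diff hO).exists_forall_le' (f := fun x => ‖f x‖)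
    hf.continuous.norm.continuousOn (a := 0) fun x hx => norm_pos_iff.2 fun h =>
      hx.2 (mem_biUnion (hfin.mem_toFinset.2 ⟨hx.1, h⟩) (hV x (hfin.mem_toFinset.2 ⟨hx.1, h⟩)).2.1)
  refine ⟨∑ z ∈ hfin.toFinset, s z, ?_, ?_⟩
  · rw [Set.ncard_eq_toFinset_card _ hfin, Finset.card_eq_sum_ones, Nat.cast_sum,
      ← Finset.sum_sub_distrib]
    exact Finset.even_sum _ fun z h => (hV z h).2.2.2.1.sub_odd (by simp)
  filter_upwards [Ioo_mem_nhdsGT hδ₀,
    (eventually_all_finset hfin.toFinset).2 fun z h => (hV z h).2.2.2.2] with δ hδ h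
  have hc : Continuous fun x => max 0 (δ - ‖f x‖) * (fderiv ℝ f x).det :=
    (continuous_const.max (continuous_const.sub hf.continuous.norm)).mul
      (ContinuousLinearMap.continuous_det.comp (hf.continuous_fderiv one_ne_zero))
  rw [setIntegral_eq_of_subset_of_forall_sdiff_eq_zero hK.measurableSet
      (s := ⋃ z ∈ hfin.toFinset, V z) (iUnion₂_subset fun z h x hx => ((hV z h).2.2.1 hx).2)
      fun x hx => by rw [max_eq_left (by linarith [hlow x hx, hδ.2]), zero_mul],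
    integral_biUnion_finset _ (fun z h => (hV z h).1.measurableSet) ?_ fun z h =>
      (hc.continuousOn.integrableOn_compact hK).mono_set fun x hx => ((hV z h).2.2.1 hx).2,
    Finset.sum_congr rfl h, Int.cast_sum, Finset.sum_mul]
  intro a ha b hb hab
  exact (hUd (hfin.mem_toFinset.1 ha) (hfin.mem_toFinset.1 hb) hab).mono
    (fun x hx => ((hV a ha).2.2.1 hx).1) fun x hx => ((hV b hb).2.2.1 hx).1

/-- regular zeros in a compact set are finite in number -/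
theorem finite_reg {E F : Type} [NormedAddCommGroup E] [NormedSpace ℝ E] [FiniteDimensional ℝ E]
    [NormedAddCommGroup F] [NormedSpace ℝ F] {U : Set E} (hU : IsOpen U) {f : E → F}
    (hf : ContDiffOn ℝ 1 f U) {K : Set E} (hK : IsCompact K) (hKU : K ⊆ U)
    (hr : ∀ x ∈ K, f x = 0 → Injective (fderiv ℝ f x)) : {x | x ∈ K ∧ f x = 0}.Finite := by
  have hZ : IsCompact {x | x ∈ K ∧ f x = 0} := hK.of_isClosed_subset
    ((hf.continuousOn.mono hKU).preimage_isClosed_of_isClosed hK.isClosed isClosed_singleton)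
    fun x hx => hx.1
  obtain ⟨t, -, ht⟩ := hZ.elim_nhds_subcover (fun x => {y | y ≠ x → f y ≠ 0}) fun x hx => by
    have hd := ((hf.contDiffAt (hU.mem_nhds (hKU hx.1))).differentiableAt one_ne_zero).hasFDerivAt
    obtain ⟨C, -, hC⟩ := (fderiv ℝ f x : E →ₗ[ℝ] F).exists_antilipschitzWith
      (LinearMap.ker_eq_bot.2 (hr x hx.1 hx.2))
    exact eventually_nhdsWithin_iff.1 (hd.eventually_ne (c := 0) ⟨C, hC⟩)
  refine t.finite_toSet.subset fun y hy => ?_
  obtain ⟨x, hx, h⟩ := mem_iUnion₂.1 (ht hy)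
  by_cases hyx : y = x
  · exact hyx ▸ hx
  · exact absurd hy.2 (h hyx)

/-- globalisation of a map by a cut-off function -/
theorem tdegb_glob {E F : Type} [NormedAddCommGroup E] [NormedSpace ℝ E]
    [NormedAddCommGroup F] [NormedSpace ℝ F] (L : F ≃L[ℝ] E) {U A W Kc K : Set E} (hU : IsOpen U)
    (hKc : IsCompact Kc) (hKcU : Kc ⊆ U) (hW : IsOpen W) (hAW : A ⊆ W) (hWK : W ⊆ Kc)
    (hKA : K ⊆ interior A) {ρ : E → ℝ} (hρ : ContDiff ℝ 1 ρ) (h1 : ∀ x ∈ W, ρ x = 1)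
    (h0 : ∀ x, x ∉ Kc → ρ x = 0) {f : E → F} (hf : ContDiffOn ℝ 1 f U)
    (hr : ∀ x ∈ U, f x = 0 → Injective (fderiv ℝ f x)) (hz : ∀ x ∈ A, f x = 0 → x ∈ K) :
    ContDiff ℝ 1 (fun x => ρ x • L (f x)) ∧
      {x | x ∈ A ∧ ρ x • L (f x) = 0} = {x | x ∈ K ∧ f x = 0} ∧
      ∀ x ∈ A, ρ x • L (f x) = 0 →
        x ∈ interior A ∧ Injective (fderiv ℝ (fun x => ρ x • L (f x)) x) := by
  have e : ∀ x ∈ A, ρ x • L (f x) = 0 ↔ f x = 0 := fun x hx => by
    rw [h1 x (hAW hx), one_smul, L.map_eq_zero_iff]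
  refine ⟨contDiff_iff_contDiffAt.2 fun p => ?_, ?_, fun x hx h => ?_⟩
  · by_cases hp : p ∈ Kc
    · exact hρ.contDiffAt.smul
        (L.contDiff.contDiffAt.comp p (hf.contDiffAt (hU.mem_nhds (hKcU hp))))
    · refine (contDiffAt_const (c := (0 : E))).congr_of_eventuallyEq ?_
      filter_upwards [hKc.isClosed.isOpen_compl.mem_nhds hp] with q hq
      rw [h0 q hq, zero_smul]
  · ext x
    exact ⟨fun h => ⟨hz x h.1 ((e x h.1).1 h.2), (e x h.1).1 h.2⟩,
      fun h => ⟨interior_subset (hKA h.1), (e x (interior_subset (hKA h.1))).2 h.2⟩⟩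
  · have h2 := (e x hx).1 h
    have h3 : (fun x => ρ x • L (f x)) =ᶠ[𝓝 x] L ∘ f := by
      filter_upwards [hW.mem_nhds (hAW hx)] with y hy
      rw [h1 y hy, one_smul, comp_apply]
    refine ⟨hKA (hz x hx h2), ?_⟩
    rw [h3.fderiv_eq, L.comp_fderiv]
    exact L.injective.comp (hr x (hKcU (hWK (hAW hx))) h2)

theorem step_parity {E F : Type} [NormedAddCommGroup E] [NormedSpace ℝ E] [FiniteDimensional ℝ E]
    [NormedAddCommGroup F] [NormedSpace ℝ F] [FiniteDimensional ℝ F]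
    (hdim : Module.finrank ℝ E = Module.finrank ℝ F) {U : Set E} (hU : IsOpen U) {f₀ f₁ : E → F}
    (h₀ : ContDiffOn ℝ 1 f₀ U) (h₁ : ContDiffOn ℝ 1 f₁ U) {K : Set E} (hK : IsCompact K)
    (hKU : K ⊆ U) (heq : ∀ x ∈ U, x ∉ K → f₀ x = f₁ x)
    (r₀ : ∀ x ∈ U, f₀ x = 0 → Injective (fderiv ℝ f₀ x))
    (r₁ : ∀ x ∈ U, f₁ x = 0 → Injective (fderiv ℝ f₁ x)) :
    Even ({x | x ∈ K ∧ f₀ x = 0}.ncard + {x | x ∈ K ∧ f₁ x = 0}.ncard) := by
  borelize E
  obtain ⟨K', hK', hKK', hK'U⟩ := exists_compact_between hK hU hKU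
  have hB : ({x | x ∈ K' ∧ f₀ x = 0} \ K).Finite :=
    (finite_reg hU h₀ hK' hK'U fun x hx => r₀ x (hK'U hx)).sdiff
  obtain ⟨A, hA, hKA, hAO⟩ := exists_compact_between hK (isOpen_interior.sdiff hB.isClosed)
    fun x hx => ⟨hKK' hx, fun h => h.2 hx⟩
  have hAU : A ⊆ U := fun x hx => hK'U (interior_subset (hAO hx).1)
  have z₀ : ∀ x ∈ A, f₀ x = 0 → x ∈ K := fun x hx h => by
    by_contra hxK
    exact (hAO hx).2 ⟨⟨interior_subset (hAO hx).1, h⟩, hxK⟩
  have z₁ : ∀ x ∈ A, f₁ x = 0 → x ∈ K := fun x hx h => by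
    by_contra hxK
    exact hxK (z₀ x hx ((heq x (hAU hx) hxK).trans h))
  obtain ⟨Kc, W, ρ, hKc, hKcU, hW, hAW, hWK, hρ, h1, h0, -⟩ := R174.PosDeg_cutoff hA hU hAU
  let L : F ≃L[ℝ] E := ContinuousLinearEquiv.ofFinrankEq hdim.symm
  obtain ⟨c₀, e₀, s₀⟩ := tdegb_glob L hU hKc hKcU hW hAW hWK hKA hρ h1 h0 h₀ r₀ z₀
  obtain ⟨c₁, e₁, s₁⟩ := tdegb_glob L hU hKc hKcU hW hAW hWK hKA hρ h1 h0 h₁ r₁ z₁
  obtain ⟨n₀, p₀, d₀⟩ := deg_formula Measure.addHaar c₀ hA s₀
    (e₀ ▸ finite_reg hU h₀ hK hKU fun x hx => r₀ x (hKU hx))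
  obtain ⟨n₁, p₁, d₁⟩ := deg_formula Measure.addHaar c₁ hA s₁
    (e₁ ▸ finite_reg hU h₁ hK hKU fun x hx => r₁ x (hKU hx))
  rw [e₀] at p₀
  rw [e₁] at p₁
  obtain ⟨δ, ⟨a₀, a₁⟩, hδ⟩ := ((d₀.and d₁).and self_mem_nhdsWithin).exists
  have hδ' : 0 < δ := hδ
  have hc : Continuous fun y : E => max 0 (δ - ‖y‖) := by fun_prop
  have hnl := R174.nl Measure.addHaar c₀ c₁ hA (fun x hx => by
    by_cases hxU : x ∈ U
    · rw [heq x hxU fun h => hx (interior_subset (hKA h))]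
    · rw [h0 x fun h => hxU (hKcU h), zero_smul, zero_smul]) hc
  have hs : HasCompactSupport fun y : E => max 0 (δ - ‖y‖) :=
    HasCompactSupport.intro (isCompact_closedBall 0 δ) fun y hy =>
      max_eq_left (by linarith [not_le.1 (mt mem_closedBall_zero_iff.2 hy)])
  have hp := hc.integral_pos_of_hasCompactSupport_nonneg_nonzero (μ := Measure.addHaar) (x := 0) hs
    (fun y => le_max_left _ _) (by simpa using hδ')
  have hn : n₀ = n₁ := by
    have := mul_right_cancel₀ hp.ne' (a₀.symm.trans (hnl.trans a₁))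
    exact_mod_cast this
  rw [← Int.even_coe_nat]
  push_cast
  obtain ⟨a, ha⟩ := p₀
  obtain ⟨b, hb⟩ := p₁
  exact ⟨n₀ - a - b, by omega⟩

end Crest.Agent.R216
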