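import Crest.Agent.R216.TForm
import Crest.Agent.R216.TGen
import Crest.Agent.R216.TCount
/-!
# R216 (T): a Morse function and a 2-form whose extra zeros are even in number

Recipe.  `link_crit`, `link_tan`: differentiate `pwedge` (product rule, `fderiv_clm_apply`);
`D (pwedge f W) z η = D²f η b0 • DW b1 + Df b0 • D²W η b1 - D²f η b1 • DW b0 - Df b1 • D²W η b0`.
`link_crit`: this is `DW (D²f η b0 • b1 - D²f η b1 • b0)`.
`link_tan`: `G = (W, f, w)`, `Df ξ = 0`, `DW ξ = 0`, `Dw ξ = 1`.  With `ζ = (-ξ 1, ξ 0)`, `det2 ξ ζ • pwedge f W y = Df y ξ • DW y ζ - Df y ζ • DW y ξ`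
for all `y`; so `D(pwedge) η = 0` gives `D²f η ξ • DW ζ = Df ζ • D²W η ξ`, `Df ζ ≠ 0`; take
`θ = -λ ζ + μ ξ`, `λ = D²f η ξ / Df ζ`, `μ = λ Dw ζ - D²w η ξ` in `hr`.
`exists_generic_map`: `exists_embedding_euclidean_of_compact`, `exists_atlas`, `borelize`, `Measure.addHaar`, `ae_all_iff`,
`Eventually.exists`, the lemmas of `TGen` with `γ = ι ∘ (e i).symm`, `U = (e i).target`.
`exists_generic`: `u = G.2.1`, `Ω = wedge u G.1`; `Ω p = 0 ∧ dd u p ≠ 0 ↔ ∃ ξ, dd G p ξ = (0,0,1)`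
(`ξ` a multiple of `dd u p b0 • b1 - dd u p b1 • b0`); `even_tangent`.
-/

set_option autoImplicit false
open scoped Manifold ContDiff Topology Matrix
open Set Filter Function Metric

namespace Crest.Agent.R216
universe u

theorem tlinka_d {F : Type} [NormedAddCommGroup F] [NormedSpace ℝ F] {f : E2 → F} {z : E2}
    (hf : ContDiffAt ℝ ∞ f z) : DifferentiableAt ℝ (fderiv ℝ f) z :=
  (hf.fderiv_right (m := 1) (by norm_cast)).differentiableAt one_ne_zero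

theorem tlinka_ap {F : Type} [NormedAddCommGroup F] [NormedSpace ℝ F] {f : E2 → F} {z : E2}
    (hf : ContDiffAt ℝ ∞ f z) (v : E2) : HasFDerivAt (fun y => fderiv ℝ f y v)
      ((fderiv ℝ (fderiv ℝ f) z).flip v) z := by
  simpa using (tlinka_d hf).hasFDerivAt.clm_apply (hasFDerivAt_const v z)

theorem tlinka_pw {f : E2 → ℝ} {W : E2 → ℂ} {z : E2} (hf : ContDiffAt ℝ ∞ f z)
    (hW : ContDiffAt ℝ ∞ W z) (η : E2) : fderiv ℝ (pwedge f W) z η =
      fderiv ℝ f z b0 • fderiv ℝ (fderiv ℝ W) z η b1 + fderiv ℝ (fderiv ℝ f) z η b0 • fderiv ℝ W z b1 -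
      (fderiv ℝ f z b1 • fderiv ℝ (fderiv ℝ W) z η b0 +
        fderiv ℝ (fderiv ℝ f) z η b1 • fderiv ℝ W z b0) := by
  have h := (((tlinka_ap hf b0).smul (tlinka_ap hW b1)).sub
    ((tlinka_ap hf b1).smul (tlinka_ap hW b0))).fderiv
  exact congrArg (fun L : E2 →L[ℝ] ℂ => L η) h

theorem tlinka_clm {F F' : Type} [NormedAddCommGroup F] [NormedSpace ℝ F] [NormedAddCommGroup F']
    [NormedSpace ℝ F'] (L : F →L[ℝ] F') {G : E2 → F} {z : E2} (hG : ContDiffAt ℝ ∞ G z) (η v : E2) :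
    fderiv ℝ (fderiv ℝ fun y => L (G y)) z η v = L (fderiv ℝ (fderiv ℝ G) z η v) := by
  have hL : ContDiffAt ℝ ∞ (fun y => L (G y)) z := L.contDiff.contDiffAt.comp z hG
  have h1 := tlinka_ap hL v
  have h2 := L.hasFDerivAt.comp z (tlinka_ap hG v)
  have h3 : (fun y => fderiv ℝ (fun y => L (G y)) y v) =ᶠ[𝓝 z] (L ∘ fun y => fderiv ℝ G y v) := by
    filter_upwards [(hG.of_le (m := 1) (by norm_cast)).eventually (by simp)] with y hy
    have := (L.hasFDerivAt.comp y (hy.differentiableAt one_ne_zero).hasFDerivAt).fderiv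
    exact congrArg (fun T : E2 →L[ℝ] F' => T v) this
  exact congrArg (fun T : E2 →L[ℝ] F' => T η) (h1.unique (h2.congr_of_eventuallyEq h3))

theorem tlinka_zero {F : Type} [NormedAddCommGroup F] [NormedSpace ℝ F] {L : E2 →L[ℝ] F}
    (h0 : L b0 = 0) (h1 : L b1 = 0) : L = 0 := by
  ext v
  rw [vec_eq v, map_add, map_smul, map_smul, h0, h1]
  simp

theorem link_crit {f : E2 → ℝ} {W : E2 → ℂ} {z : E2} (hf : ContDiffAt ℝ ∞ f z)
    (hW : ContDiffAt ℝ ∞ W z) (h0 : fderiv ℝ f z = 0) (h2 : Injective (fderiv ℝ (fderiv ℝ f) z))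
    (h1 : Injective (fderiv ℝ W z)) : Injective (fderiv ℝ (pwedge f W) z) := by
  refine (injective_iff_map_eq_zero _).2 fun η hη => ?_
  rw [tlinka_pw hf hW, h0] at hη
  simp only [ContinuousLinearMap.zero_apply, zero_smul, zero_add] at hη
  rw [← map_smul, ← map_smul, ← map_sub] at hη
  have h3 := (injective_iff_map_eq_zero _).1 h1 _ hη
  have h4 := congrArg (fun v : E2 => v 0) h3
  have h5 := congrArg (fun v : E2 => v 1) h3
  refine (injective_iff_map_eq_zero _).1 h2 _ (tlinka_zero ?_ ?_)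
  · simpa [b0, b1] using h5
  · simpa [b0, b1] using h4

theorem tlinka_alg {B C : E2 →L[ℝ] T4} {ξ : E2} (hξ : B ξ = (0, 0, 1))
    (h0 : ¬((B b0).2.1 = 0 ∧ (B b1).2.1 = 0))
    (h : (B b0).2.1 • (C b1).1 + (C b0).2.1 • (B b1).1 -
      ((B b1).2.1 • (C b0).1 + (C b1).2.1 • (B b0).1) = 0) : ∃ θ, C ξ + B θ = 0 := by
  have hx := hξ
  rw [vec_eq ξ, map_add, map_smul, map_smul] at hx
  have hC : C ξ = ξ 0 • C b0 + ξ 1 • C b1 := by
    conv_lhs => rw [vec_eq ξ, map_add, map_smul, map_smul]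
  have e1 : ξ 0 • (B b0).1 + ξ 1 • (B b1).1 = 0 := congrArg (·.1) hx
  have e2 : ξ 0 * (B b0).2.1 + ξ 1 * (B b1).2.1 = 0 := congrArg (·.2.1) hx
  have e3 : ξ 0 * (B b0).2.2 + ξ 1 * (B b1).2.2 = 1 := congrArg (·.2.2) hx
  have hn : ξ 0 ^ 2 + ξ 1 ^ 2 ≠ 0 := fun hn => by
    have a0 : ξ 0 = 0 := by nlinarith [sq_nonneg (ξ 0), sq_nonneg (ξ 1)]
    have a1 : ξ 1 = 0 := by nlinarith [sq_nonneg (ξ 0), sq_nonneg (ξ 1)]
    rw [a0, a1] at e3
    norm_num at e3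
  obtain ⟨d, hd⟩ : ∃ d, d = -ξ 1 * (B b0).2.1 + ξ 0 * (B b1).2.1 := ⟨_, rfl⟩
  have hd0 : d ≠ 0 := fun hd0 => h0
    ⟨(mul_eq_zero.1 (by linear_combination ξ 0 * e2 + ξ 1 * hd - ξ 1 * hd0)).resolve_left hn,
     (mul_eq_zero.1 (by linear_combination ξ 1 * e2 - ξ 0 * hd + ξ 0 * hd0)).resolve_left hn⟩
  obtain ⟨l, hl⟩ : ∃ l, l * d = ξ 0 * (C b0).2.1 + ξ 1 * (C b1).2.1 := ⟨_, div_mul_cancel₀ _ hd0⟩
  refine ⟨-l • (-ξ 1 • b0 + ξ 0 • b1) + (l * (-ξ 1 * (B b0).2.2 + ξ 0 * (B b1).2.2) - (C ξ).2.2) • ξ, ?_⟩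
  rw [map_add, map_smul, map_smul, hξ, map_add, map_smul, map_smul]
  refine Prod.ext ?_ (Prod.ext ?_ ?_)
  · rw [hC]
    simp only [Prod.fst_add, Prod.smul_fst, Complex.real_smul, Prod.fst_zero] at e1 h ⊢
    have hd0' : (d : ℂ) ≠ 0 := Complex.ofReal_ne_zero.2 hd0
    have e2' := congrArg Complex.ofReal e2
    have hd' := congrArg Complex.ofReal hd
    have hl' := congrArg Complex.ofReal hl
    push_cast at e2' hd' hl' ⊢
    refine mul_left_cancel₀ hd0' ?_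
    linear_combination (-(ξ 0 : ℂ) ^ 2 - (ξ 1 : ℂ) ^ 2) * h +
      (-(ξ 1 : ℂ) * (C b0).1 + ξ 0 * (C b1).1) * e2' -
      (-(ξ 1 : ℂ) * (C b0).2.1 + ξ 0 * (C b1).2.1) * e1 +
      ((ξ 0 : ℂ) * (C b0).1 + ξ 1 * (C b1).1) * hd' -
      (-(ξ 1 : ℂ) * (B b0).1 + ξ 0 * (B b1).1) * hl'
  · rw [hC]
    simp only [Prod.snd_add, Prod.fst_add, Prod.smul_fst, Prod.smul_snd, smul_eq_mul, Prod.snd_zero,
      Prod.fst_zero]
    linear_combination l * hd - hl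
  · simp only [Prod.snd_add, Prod.smul_snd, smul_eq_mul, Prod.snd_zero]
    ring

theorem link_tan {G : E2 → T4} {z : E2} (hG : ContDiffAt ℝ ∞ G z)
    (h0 : fderiv ℝ (fun y => (G y).2.1) z ≠ 0) {ξ : E2} (hξ : fderiv ℝ G z ξ = (0, 0, 1))
    (hr : ∀ η θ, fderiv ℝ (fderiv ℝ G) z η ξ + fderiv ℝ G z θ = 0 → η = 0 ∧ θ = 0) :
    Injective (fderiv ℝ (pwedge (fun y => (G y).2.1) fun y => (G y).1) z) := by
  let L1 : T4 →L[ℝ] ℂ := ContinuousLinearMap.fst ℝ ℂ (ℝ × ℝ)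
  let L2 : T4 →L[ℝ] ℝ := (ContinuousLinearMap.fst ℝ ℝ ℝ).comp (ContinuousLinearMap.snd ℝ ℂ (ℝ × ℝ))
  have hd := (hG.differentiableAt (by simp)).hasFDerivAt
  have a1 : ∀ v, fderiv ℝ (fun y => (G y).1) z v = (fderiv ℝ G z v).1 := fun v =>
    congrArg (fun T : E2 →L[ℝ] ℂ => T v) (L1.hasFDerivAt.comp z hd).fderiv
  have a2 : ∀ v, fderiv ℝ (fun y => (G y).2.1) z v = (fderiv ℝ G z v).2.1 := fun v =>
    congrArg (fun T : E2 →L[ℝ] ℝ => T v) (L2.hasFDerivAt.comp z hd).fderiv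
  have a3 : ∀ η v, fderiv ℝ (fderiv ℝ fun y => (G y).1) z η v = (fderiv ℝ (fderiv ℝ G) z η v).1 :=
    tlinka_clm L1 hG
  have a4 : ∀ η v, fderiv ℝ (fderiv ℝ fun y => (G y).2.1) z η v = (fderiv ℝ (fderiv ℝ G) z η v).2.1 :=
    tlinka_clm L2 hG
  refine (injective_iff_map_eq_zero _).2 fun η hη => ?_
  rw [tlinka_pw hG.snd.fst hG.fst] at hη
  simp only [a1, a2, a3, a4] at hη
  obtain ⟨θ, hθ⟩ := tlinka_alg hξ (fun h => h0 (tlinka_zero ((a2 _).trans h.1) ((a2 _).trans h.2))) hη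
  exact (hr η θ hθ).1

variable {M : Type u} [TopologicalSpace M] [ChartedSpace E2 M] [IsManifold (𝓡 2) ∞ M]
  [T2Space M] [CompactSpace M]

theorem exists_generic_map : ∃ G : M → T4, Sm G ∧ (∀ p, Injective (dd G p)) ∧
    (∀ x y, x ≠ y → G x = G y → ∀ a b, dd G x a = dd G y b → a = 0 ∧ b = 0) ∧
    ∀ p, ∃ e : OpenPartialHomeomorph M E2, IsCh e ∧ p ∈ e.source ∧
      (∀ ξ, fderiv ℝ (G ∘ e.symm) (e p) ξ = (0, 0, 1) → ∀ η θ,
        fderiv ℝ (fderiv ℝ (G ∘ e.symm)) (e p) η ξ + fderiv ℝ (G ∘ e.symm) (e p) θ = 0 →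
        η = 0 ∧ θ = 0) ∧
      (fderiv ℝ (fun y => (G (e.symm y)).2.1) (e p) = 0 →
        Injective (fderiv ℝ (fderiv ℝ fun y => (G (e.symm y)).2.1) (e p)) ∧
        Injective (fderiv ℝ (fun y => (G (e.symm y)).1) (e p))) := by
  obtain ⟨n, ι, hι, hemb, hinj⟩ := exists_embedding_euclidean_of_compact (I := 𝓡 2) (M := M)
  obtain ⟨m, e, ψ, he, -, -, hsum, hsupp⟩ := exists_atlas (M := M)
  borelize (EuclideanSpace ℝ (Fin n) →L[ℝ] T4)
  let μ : MeasureTheory.Measure (EuclideanSpace ℝ (Fin n) →L[ℝ] T4) :=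
    MeasureTheory.Measure.addHaar
  have hcov : ∀ p, ∃ i, p ∈ (e i).source := fun p => by
    by_contra h
    have h0 : ∀ i, ψ i p = 0 := fun i => by
      by_contra h0
      exact h ⟨i, hsupp i (subset_tsupport _ h0)⟩
    have h1 := hsum p
    simp [h0] at h1
  have hιs : Sm ι := hι
  have hγ : ∀ i, ContDiffOn ℝ ∞ (ι ∘ (e i).symm) (e i).target := fun i =>
    (he i).contDiffOn_symm hιs
  have hi : ∀ i, ∀ z ∈ (e i).target, Injective (fderiv ℝ (ι ∘ (e i).symm) z) := fun i z hz => by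
    have := ((he i).dd_inj ((e i).map_target hz) (hιs.df _)).1 (hinj _)
    rwa [(e i).right_inv hz] at this
  have hv : ((0, 0, 1) : T4) ≠ 0 := by simp
  have h1 := MeasureTheory.ae_all_iff.2 fun i => gen_imm μ (e i).open_target (hγ i) (hi i)
  have h2 := MeasureTheory.ae_all_iff.2 fun i => gen_tan μ (e i).open_target (hγ i) (hi i) hv
  have h3 := MeasureTheory.ae_all_iff.2 fun i => gen_morse μ (e i).open_target (hγ i) (hi i)
  have h4 := MeasureTheory.ae_all_iff.2 fun i => gen_dis μ (e i).open_target (hγ i) (hi i)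
  have h5 := MeasureTheory.ae_all_iff.2 fun i => MeasureTheory.ae_all_iff.2 fun j =>
    gen_dbl μ (e i).open_target (e j).open_target (hγ i) (hγ j)
  obtain ⟨A, hA1, hA2, hA3, hA4, hA5⟩ := (h1.and (h2.and (h3.and (h4.and h5)))).exists
  have hG : Sm fun p => A (ι p) := hιs.clm A
  refine ⟨fun p => A (ι p), hG, fun p => ?_, fun x y hxy hGxy a b hab => ?_, fun p => ?_⟩
  · obtain ⟨i, hp⟩ := hcov p
    exact ((he i).dd_inj hp (hG.df p)).2 (hA1 i _ ((e i).map_source hp))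
  · obtain ⟨i, hx⟩ := hcov x
    obtain ⟨j, hy⟩ := hcov y
    rw [(he i).dd_eq hx (hG.df x), (he j).dd_eq hy (hG.df y)] at hab
    have hne : (ι ∘ (e i).symm) (e i x) ≠ (ι ∘ (e j).symm) (e j y) := by
      simp only [comp_apply, (e i).left_inv hx, (e j).left_inv hy]
      exact fun h => hxy (hemb.injective h)
    have heq : A ((ι ∘ (e i).symm) (e i x)) = A ((ι ∘ (e j).symm) (e j y)) := by
      simp only [comp_apply, (e i).left_inv hx, (e j).left_inv hy]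
      exact hGxy
    obtain ⟨ha, hb⟩ := hA5 i j _ ((e i).map_source hx) _ ((e j).map_source hy) hne heq _ _ hab
    exact ⟨((he i).bij hx).1 (ha.trans (map_zero _).symm),
      ((he j).bij hy).1 (hb.trans (map_zero _).symm)⟩
  · obtain ⟨i, hp⟩ := hcov p
    exact ⟨e i, he i, hp, hA2 i _ ((e i).map_source hp), fun h0 =>
      ⟨hA3 i _ ((e i).map_source hp) h0, hA4 i _ ((e i).map_source hp) h0⟩⟩

theorem tlinkb_lin (L : E2 →L[ℝ] T4) (A : E2 →L[ℝ] ℝ) (B : E2 →L[ℝ] ℂ)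
    (hA : ∀ v, A v = (L v).2.1) (hB : ∀ v, B v = (L v).1) (hL : Injective L)
    (hd : A = 0 → Injective B) :
    (A b0 • B b1 - A b1 • B b0 = 0 ∧ A ≠ 0) ↔ ∃ ξ, L ξ = (0, 0, 1) := by
  constructor
  · rintro ⟨h0, hA0⟩
    set ζ : E2 := A b0 • b1 - A b1 • b0 with hζ
    have hAζ : A ζ = 0 := by
      rw [hζ, map_sub, map_smul, map_smul, smul_eq_mul, smul_eq_mul]
      ring
    have hBζ : B ζ = 0 := by
      rw [hζ, map_sub, map_smul, map_smul]
      exact h0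
    have hζ0 : ζ ≠ 0 := by
      intro h
      apply hA0
      have e0 : A b1 = 0 := by
        have := congrArg (fun v : E2 => v 0) h
        simpa [hζ, b0, b1] using this
      have e1 : A b0 = 0 := by
        have := congrArg (fun v : E2 => v 1) h
        simpa [hζ, b0, b1] using this
      ext1 v
      rw [vec_eq v, map_add, map_smul, map_smul, e0, e1]
      simp
    have hL0 : L ζ = (0, 0, (L ζ).2.2) := by
      rw [← hBζ, ← hAζ, hA, hB]
    have hc : (L ζ).2.2 ≠ 0 := by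
      intro h
      apply hζ0
      apply hL
      rw [hL0, h, map_zero]
      rfl
    refine ⟨((L ζ).2.2)⁻¹ • ζ, ?_⟩
    rw [map_smul]
    nth_rewrite 2 [hL0]
    simp [hc]
  · rintro ⟨ξ, hξ⟩
    have hAξ : A ξ = 0 := by rw [hA, hξ]
    have hBξ : B ξ = 0 := by rw [hB, hξ]
    have hξ0 : ξ ≠ 0 := by
      rintro rfl
      rw [map_zero] at hξ
      have := congrArg (fun t : T4 => t.2.2) hξ
      simp at this
    refine ⟨?_, fun h => hξ0 (hd h (hBξ.trans (map_zero B).symm))⟩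
    have h := tformb_wedge A B ξ ((-ξ 1) • b0 + ξ 0 • b1)
    rw [hAξ, hBξ, zero_smul, smul_zero, sub_zero] at h
    have hdet : det2 ξ ((-ξ 1) • b0 + ξ 0 • b1) ≠ 0 := by
      have : det2 ξ ((-ξ 1) • b0 + ξ 0 • b1) = ξ 0 ^ 2 + ξ 1 ^ 2 := by
        simp [det2, b0, b1]
        ring
      rw [this]
      intro h0
      apply hξ0
      have e0 : ξ 0 = 0 := by nlinarith [sq_nonneg (ξ 0), sq_nonneg (ξ 1)]
      have e1 : ξ 1 = 0 := by nlinarith [sq_nonneg (ξ 0), sq_nonneg (ξ 1)]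
      rw [vec_eq ξ, e0, e1]
      simp
    exact (smul_eq_zero.1 h.symm).resolve_left hdet

theorem exists_generic : ∃ (f : M → ℝ) (Ω : M → ℂ), Morse f ∧ GoodF Ω ∧
    (∀ p, dd f p = 0 → Ω p = 0) ∧
    ∀ S : Set M, IsClopen S → Even {p | p ∈ S ∧ Ω p = 0 ∧ dd f p ≠ 0}.ncard := by
  obtain ⟨G, hG, himm, htr, hch⟩ := exists_generic_map (M := M)
  let π : T4 →L[ℝ] ℝ := (ContinuousLinearMap.fst ℝ ℝ ℝ).comp (ContinuousLinearMap.snd ℝ ℂ (ℝ × ℝ))
  let f : M → ℝ := fun p => (G p).2.1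
  let W : M → ℂ := fun p => (G p).1
  have hf : Sm f := hG.clm π
  have hW : Sm W := hG.clm (ContinuousLinearMap.fst ℝ ℂ (ℝ × ℝ))
  have hdf : ∀ p v, dd f p v = (dd G p v).2.1 := fun p v => dd_clm π (hG.df p) v
  have hdW : ∀ p v, dd W p v = (dd G p v).1 := fun p v =>
    dd_clm (ContinuousLinearMap.fst ℝ ℂ (ℝ × ℝ)) (hG.df p) v
  have key : ∀ p, (wedge f W p = 0 ∧ dd f p ≠ 0) ↔ ∃ ξ, dd G p ξ = (0, 0, 1) := fun p => by
    refine tlinkb_lin (dd G p) (dd f p) (dd W p) (hdf p) (hdW p) (himm p) fun h0 => ?_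
    obtain ⟨e, he, hp, -, h⟩ := hch p
    exact (he.dd_inj hp (hW.df p)).2 (h ((he.dd_eq_zero hp (hf.df p)).1 h0)).2
  refine ⟨f, wedge f W, ⟨hf, fun p h0 => ?_⟩, ⟨smF_wedge hf hW, fun p h0 => ?_⟩, fun p h0 => ?_,
    fun S hS => ?_⟩
  · obtain ⟨e, he, hp, -, h⟩ := hch p
    exact ND.of_chart he hp hf h0 (h ((he.dd_eq_zero hp (hf.df p)).1 h0)).1
  · obtain ⟨e, he, hp, hr, h⟩ := hch p
    have hn : e.target ∈ 𝓝 (e p) := e.open_target.mem_nhds (e.map_source hp)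
    refine SZ.of_chart he hp h0
      (((smF_wedge hf hW e he).contDiffAt hn).differentiableAt (by simp)) ?_
    have hev : rep e (wedge f W) =ᶠ[𝓝 (e p)] pwedge (f ∘ e.symm) (W ∘ e.symm) := by
      filter_upwards [hn] with z hz using he.rep_wedge hf hW hz
    rw [hev.fderiv_eq]
    by_cases hd : dd f p = 0
    · have hd' := (he.dd_eq_zero hp (hf.df p)).1 hd
      exact link_crit (he.contDiffAt_symm hp (hf p)) (he.contDiffAt_symm hp (hW p)) hd'
        (h hd').1 (h hd').2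
    · obtain ⟨ξ, hξ⟩ := (key p).1 ⟨h0, hd⟩
      rw [he.dd_eq hp (hG.df p)] at hξ
      exact link_tan (G := G ∘ e.symm) (he.contDiffAt_symm hp (hG p))
        (fun h' => hd ((he.dd_eq_zero hp (hf.df p)).2 h')) hξ (hr _ hξ)
  · simp [wedge, h0]
  · have : {p | p ∈ S ∧ wedge f W p = 0 ∧ dd f p ≠ 0} =
        {p | p ∈ S ∧ ∃ ξ, dd G p ξ = (0, 0, 1)} := by
      ext p
      simp only [mem_ofPred_eq, key p]
    rw [this]
    refine even_tangent finrank_T4 hG himm _ htr (fun p ⟨ξ, hξ⟩ => ?_) hS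
    obtain ⟨e, he, hp, hr, -⟩ := hch p
    rw [he.dd_eq hp (hG.df p)] at hξ
    exact ⟨e, _, he, hp, hξ, hr _ hξ⟩

end Crest.Agent.R216
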